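import Vale.Agent.P050.R2.H300.Defs

set_option linter.all false

/-!
Dense targets: the density of a bipartite graph in the kernel `1 + U` is the partition function
`ZZ` (integration over the vertices of `B`).
-/

open MeasureTheory Finset

namespace Vale.Agent.P050.Dense

open Vale.Agent.P050

section dens

variable {V : Type*} [Fintype V] [DecidableEq V] {Ω : Type*} [MeasurableSpace Ω]
  (μ : Measure Ω) [IsProbabilityMeasure μ] {U : Sym2 Ω → ℝ} {κ η : ℝ}

/-- the product over the edges, sorted by the endpoint in `B` -/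
private lemma prod_edges_de (H : SimpleGraph V) [DecidableRel H.Adj] (B : Finset V)
    (hB : ∀ u v, H.Adj u v → (u ∈ B ↔ v ∉ B)) (U : Sym2 Ω → ℝ) (z : V → Ω) :
    ∏ e ∈ H.edgeFinset, (1 + U (e.map z)) =
      ∏ b ∈ B, ∏ a ∈ H.neighborFinset b, (1 + U s(z a, z b)) := by
  rw [Finset.prod_sigma']
  symm
  refine Finset.prod_bij (fun p _ => s(p.2, p.1)) ?_ ?_ ?_ ?_
  · rintro ⟨b, a⟩ h
    simp only [Finset.mem_sigma, SimpleGraph.mem_neighborFinset] at h
    rw [SimpleGraph.mem_edgeFinset, SimpleGraph.mem_edgeSet]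
    exact h.2.symm
  · rintro ⟨b, a⟩ h ⟨b', a'⟩ h' heq
    simp only [Finset.mem_sigma, SimpleGraph.mem_neighborFinset] at h h'
    simp only [Sym2.eq_iff] at heq
    rcases heq with ⟨h1, h2⟩ | ⟨h1, h2⟩
    · subst h1; subst h2; rfl
    · exfalso
      have h3 : a ∉ B := (hB b a h.2).mp h.1
      rw [h1] at h3
      exact h3 h'.1
  · intro e he
    induction e with
    | h u v =>
      rw [SimpleGraph.mem_edgeFinset, SimpleGraph.mem_edgeSet] at he
      by_cases hv : v ∈ B
      · exact ⟨⟨v, u⟩, by simp [hv, he.symm], rfl⟩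
      · have hu : u ∈ B := (hB u v he).mpr hv
        exact ⟨⟨u, v⟩, by simp [hu, he], Sym2.eq_swap⟩
  · rintro ⟨b, a⟩ h
    rfl

/-- the factor of the vertex `b` is bounded and measurable -/
private lemma bm_Q_de (hU : Good U 1) (T : Finset V) (b : V) :
    BM (fun z : V → Ω => ∏ a ∈ T, (1 + U s(z a, z b))) := by
  refine BM.finprod T fun a _ => ?_
  have := hU.bm_edge (V := V) s(a, b)
  exact (BM.const 1).add (by simpa using this)

private lemma bm_P_de (hU : Good U 1) (T : Finset V) :
    BM (fun r : (V → Ω) × Ω => ∏ a ∈ T, (1 + U s(r.1 a, r.2))) := by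
  refine BM.finprod T fun a _ => ?_
  have h1 : BM (fun r : (V → Ω) × Ω => U s(r.1 a, r.2)) :=
    hU.bm_two.comp (g := fun r : (V → Ω) × Ω => (r.1 a, r.2)) (by fun_prop)
  exact (BM.const 1).add h1

private lemma bm_Phi_de (hU : Good U 1) (N : V → Finset V) (S : Finset V) (b : V) :
    BM (fun z : V → Ω => Phi μ U N S b z) :=
  ((bm_P_de hU (N b \ S)).sub (BM.const 1)).integral_right μ

private lemma one_add_Phi_de (hU : Good U 1) (N : V → Finset V) (b : V) (z : V → Ω) :
    1 + Phi μ U N ∅ b z = ∫ y, ∏ a ∈ N b, (1 + U s(z a, y)) ∂μ := by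
  unfold Phi
  rw [Finset.sdiff_empty]
  have h1 : BM (fun y : Ω => ∏ a ∈ N b, (1 + U s(z a, y))) :=
    (bm_P_de hU (N b)).comp (g := fun y : Ω => (z, y)) (by fun_prop)
  rw [integral_sub (h1.integrable μ) (integrable_const _)]
  simp

/-- integration over the vertices of `S` -/
private lemma step_de (hU : Good U 1) (N : V → Finset V) :
    ∀ (S : Finset V), (∀ b ∈ S, ∀ a ∈ N b, a ∉ S) → ∀ (R : (V → Ω) → ℝ), BM R →
      (∀ b ∈ S, Ind b R) →
      ∫ z, R z * ∏ b ∈ S, ∏ a ∈ N b, (1 + U s(z a, z b)) ∂(piM V μ) =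
        ∫ z, R z * ∏ b ∈ S, (1 + Phi μ U N ∅ b z) ∂(piM V μ) := by
  intro S
  induction S using Finset.induction_on with
  | empty => intro _ R _ _; simp
  | insert b S hb ih =>
    intro hN R hR hRi
    have hNb : ∀ a ∈ N b, a ≠ b ∧ a ∉ S := by
      intro a ha
      have := hN b (Finset.mem_insert_self b S) a ha
      simp only [Finset.mem_insert, not_or] at this
      exact this
    have hQ : BM (fun z : V → Ω => ∏ a ∈ N b, (1 + U s(z a, z b))) := bm_Q_de hU (N b) b
    -- the factor of `b` does not depend on the vertices of `S`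
    have h1 : ∫ z, R z * ∏ b ∈ insert b S, ∏ a ∈ N b, (1 + U s(z a, z b)) ∂(piM V μ) =
        ∫ z, (R z * ∏ a ∈ N b, (1 + U s(z a, z b))) *
          ∏ b ∈ S, ∏ a ∈ N b, (1 + U s(z a, z b)) ∂(piM V μ) := by
      congr 1
      ext z
      rw [Finset.prod_insert hb, mul_assoc]
    rw [h1, ih ?_ (fun z => R z * ∏ a ∈ N b, (1 + U s(z a, z b))) (hR.mul hQ) ?_]
    · have hP : BM (fun z : V → Ω => ∏ b ∈ S, (1 + Phi μ U N ∅ b z)) :=
        BM.finprod S fun b _ => (BM.const 1).add (bm_Phi_de μ hU N ∅ b)
      rw [integral_update μ b ((hR.mul hQ).mul hP)]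
      congr 1
      ext z
      have h2 : ∀ y, R (Function.update z b y) = R z :=
        fun y => hRi b (Finset.mem_insert_self b S) z y
      have h3 : ∀ y, ∏ a ∈ N b, (1 + U s(Function.update z b y a, Function.update z b y b)) =
          ∏ a ∈ N b, (1 + U s(z a, y)) := by
        intro y
        refine Finset.prod_congr rfl fun a ha => ?_
        rw [Function.update_of_ne (hNb a ha).1, Function.update_self]
      have h4 : ∀ y, ∏ b' ∈ S, (1 + Phi μ U N ∅ b' (Function.update z b y)) =
          ∏ b' ∈ S, (1 + Phi μ U N ∅ b' z) := by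
        intro y
        refine Finset.prod_congr rfl fun b' hb' => ?_
        congr 1
        unfold Phi
        congr 1
        ext t
        congr 1
        refine Finset.prod_congr rfl fun a ha => ?_
        have hab : a ≠ b := by
          intro h
          subst h
          have := hN b' (Finset.mem_insert_of_mem hb') a (Finset.mem_sdiff.mp ha).1
          exact this (Finset.mem_insert_self _ _)
        rw [Function.update_of_ne hab]
      simp only [h2, h3, h4]
      rw [Finset.prod_insert hb, integral_mul_const, integral_const_mul, one_add_Phi_de μ hU,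
        mul_assoc]
    · intro b' hb' a ha h
      exact hN b' (Finset.mem_insert_of_mem hb') a ha (Finset.mem_insert_of_mem h)
    · intro b' hb' z y
      have hbb : b ≠ b' := by
        intro h; subst h; exact hb hb'
      show R (Function.update z b' y) * _ = R z * _
      rw [hRi b' (Finset.mem_insert_of_mem hb') z y]
      congr 1
      refine Finset.prod_congr rfl fun a ha => ?_
      have hab : a ≠ b' := by
        intro h; subst h; exact (hNb a ha).2 hb'
      rw [Function.update_of_ne hab, Function.update_of_ne hbb]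

/-- the density of `H` in the kernel `1 + U` is the partition function -/
theorem dens_eq (H : SimpleGraph V) [DecidableRel H.Adj] (hU : Ker μ U κ η) (B : Finset V)
    (hB : ∀ u v, H.Adj u v → (u ∈ B ↔ v ∉ B)) {g : Ω → ℝ} (hgm : BM g) :
    (∫ z, ∏ e ∈ H.edgeFinset, (1 + U (e.map z)) ∂(piM V μ)) =
      ZZ μ U (fun v => H.neighborFinset v) B ∧
    ∀ a ∉ B, (∫ z, g (z a) * ∏ e ∈ H.edgeFinset, (1 + U (e.map z)) ∂(piM V μ)) =
      ZZg μ U (fun v => H.neighborFinset v) g a B := by
  have hN : ∀ b ∈ B, ∀ a ∈ H.neighborFinset b, a ∉ B := by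
    intro b hb a ha
    rw [SimpleGraph.mem_neighborFinset] at ha
    exact (hB b a ha).mp hb
  constructor
  · have h1 := step_de μ hU.good (fun v => H.neighborFinset v) B hN (fun _ => (1 : ℝ))
      (BM.const 1) (fun _ _ _ _ => rfl)
    simp only [one_mul] at h1
    unfold ZZ
    rw [← h1]
    congr 1
    ext z
    exact prod_edges_de H B hB U z
  · intro a ha
    have h1 := step_de μ hU.good (fun v => H.neighborFinset v) B hN (fun z : V → Ω => g (z a))
      (hgm.comp (measurable_pi_apply a)) (fun b hb z y => by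
        have hab : a ≠ b := by
          intro h; subst h; exact ha hb
        show g (Function.update z b y a) = g (z a)
        rw [Function.update_of_ne hab])
    unfold ZZg
    rw [← h1]
    congr 1
    ext z
    rw [prod_edges_de H B hB U z]

end dens

end Vale.Agent.P050.Dense
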