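import Vale.Agent.P050.R2.H901.Defs3

/-!
Bounded degrees: the gain is `s / (2 D ^ 5)`, where `s` is the number of non-neighbours of the hub
with acyclic arms.
-/

set_option linter.unusedSectionVars false

namespace Vale.Agent.P050.R2.H128

open Finset
open Vale.Agent.P050.R2.H901

namespace F4

section comb

variable {A B : Type} [Fintype A] [DecidableEq A] [Fintype B] [DecidableEq B]

/-- neighbours of `a` other than the hub -/
def nb (N : B → Finset A) (b0 : B) (a : A) : Finset B := univ.filter fun b => b ≠ b0 ∧ a ∈ N b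

theorem mem_nb {N : B → Finset A} {b0 : B} {a : A} {b : B} :
    b ∈ nb N b0 a ↔ b ≠ b0 ∧ a ∈ N b := by simp [nb]

/-- close vertices -/
def Conf (N : B → Finset A) (a a' : A) : Prop :=
  ∃ b b', a ∈ N b ∧ a' ∈ N b' ∧ ¬ Disjoint (N b) (N b')

theorem Conf.symm {N : B → Finset A} {a a' : A} (h : Conf N a a') : Conf N a' a := by
  obtain ⟨b, b', h1, h2, h3⟩ := h
  exact ⟨b', b, h2, h1, fun h => h3 h.symm⟩

/-- the largest degree of a neighbour -/
def cl (N : B → Finset A) (b0 : B) (a : A) : ℕ := (nb N b0 a).sup fun b => (N b).card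

/-- a maximal set of pairwise far vertices -/
theorem exists_far {V : Type} [DecidableEq V] (R : V → V → Prop) (hR : ∀ a b, R a b → R b a)
    (S : Finset V) : ∃ F ⊆ S, (∀ a ∈ F, ∀ a' ∈ F, a ≠ a' → ¬ R a a') ∧
      ∀ a ∈ S, a ∈ F ∨ ∃ f ∈ F, R f a := by
  classical
  induction S using Finset.induction_on with
  | empty => exact ⟨∅, by simp, by simp, by simp⟩
  | insert a S _ ih =>
    obtain ⟨F, h1, h2, h3⟩ := ih
    by_cases h : ∃ f ∈ F, R f a
    · refine ⟨F, h1.trans (Finset.subset_insert _ _), h2, ?_⟩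
      intro x hx
      rcases Finset.mem_insert.1 hx with rfl | hx
      · exact Or.inr h
      · exact h3 x hx
    · refine ⟨insert a F, Finset.insert_subset_insert _ h1, ?_, ?_⟩
      · intro x hx y hy hxy hr
        rcases Finset.mem_insert.1 hx with hx1 | hx1
        · rcases Finset.mem_insert.1 hy with hy1 | hy1
          · exact hxy (hx1.trans hy1.symm)
          · exact h ⟨y, hy1, hR _ _ (hx1 ▸ hr)⟩
        · rcases Finset.mem_insert.1 hy with hy1 | hy1
          · exact h ⟨x, hx1, hy1 ▸ hr⟩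
          · exact h2 x hx1 y hy1 hxy hr
      · intro x hx
        rcases Finset.mem_insert.1 hx with rfl | hx
        · exact Or.inl (Finset.mem_insert_self _ _)
        · rcases h3 x hx with h4 | ⟨f, h4, h5⟩
          · exact Or.inl (Finset.mem_insert_of_mem h4)
          · exact Or.inr ⟨f, Finset.mem_insert_of_mem h4, h5⟩

/-- the vertices close to `f` -/
def ball (N : B → Finset A) (b0 : B) (f : A) : Finset A :=
  insert f ((nb N b0 f).biUnion fun b => ((N b).erase f).biUnion fun v =>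
    insert v (((nb N b0 v).erase b).biUnion fun b' => (N b').erase v))

theorem card_ball {N : B → Finset A} {b0 : B} {D : ℕ} (hA : ∀ a, (nb N b0 a).card ≤ D)
    (hB : ∀ b, b ≠ b0 → (N b).card ≤ D) (f : A) :
    (ball N b0 f).card ≤ 1 + D * ((D - 1) * (1 + (D - 1) * (D - 1))) := by
  unfold ball
  refine (Finset.card_insert_le _ _).trans ?_
  rw [add_comm]
  refine Nat.add_le_add_left ?_ 1
  refine (Finset.card_biUnion_le_card_mul _ _ ((D - 1) * (1 + (D - 1) * (D - 1))) fun b hb => ?_).trans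
    (Nat.mul_le_mul_right _ (hA f))
  have hb' := mem_nb.1 hb
  have h1 : ((N b).erase f).card ≤ D - 1 := by
    rw [Finset.card_erase_of_mem hb'.2]
    exact Nat.sub_le_sub_right (hB b hb'.1) 1
  refine (Finset.card_biUnion_le_card_mul _ _ (1 + (D - 1) * (D - 1)) fun v hv => ?_).trans
    (Nat.mul_le_mul_right _ h1)
  have hv' : v ∈ N b := (Finset.mem_erase.1 hv).2
  refine (Finset.card_insert_le _ _).trans ?_
  rw [add_comm]
  refine Nat.add_le_add_left ?_ 1
  have h2 : ((nb N b0 v).erase b).card ≤ D - 1 := by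
    rw [Finset.card_erase_of_mem (mem_nb.2 ⟨hb'.1, hv'⟩)]
    exact Nat.sub_le_sub_right (hA v) 1
  refine (Finset.card_biUnion_le_card_mul _ _ (D - 1) fun b' hb2 => ?_).trans
    (Nat.mul_le_mul_right _ h2)
  have hb3 := mem_nb.1 (Finset.mem_erase.1 hb2).2
  rw [Finset.card_erase_of_mem hb3.2]
  exact Nat.sub_le_sub_right (hB b' hb3.1) 1

theorem mem_ball {N : B → Finset A} {b0 : B} {f a : A} (hf : f ∉ N b0) (ha : a ∉ N b0)
    (h : Conf N f a) : a ∈ ball N b0 f := by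
  obtain ⟨b, b', h1, h2, h3⟩ := h
  rw [Finset.not_disjoint_iff] at h3
  obtain ⟨v, h4, h5⟩ := h3
  have hb : b ≠ b0 := fun e => hf (e ▸ h1)
  have hb' : b' ≠ b0 := fun e => ha (e ▸ h2)
  unfold ball
  by_cases haf : a = f
  · rw [haf]
    exact Finset.mem_insert_self _ _
  refine Finset.mem_insert_of_mem ?_
  simp only [Finset.mem_biUnion]
  by_cases hab : a ∈ N b
  · exact ⟨b, mem_nb.2 ⟨hb, h1⟩, a, Finset.mem_erase.2 ⟨haf, hab⟩, Finset.mem_insert_self _ _⟩
  by_cases hvf : v = f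
  · exact ⟨b', mem_nb.2 ⟨hb', hvf ▸ h5⟩, a, Finset.mem_erase.2 ⟨haf, h2⟩,
      Finset.mem_insert_self _ _⟩
  · refine ⟨b, mem_nb.2 ⟨hb, h1⟩, v, Finset.mem_erase.2 ⟨hvf, h4⟩, Finset.mem_insert_of_mem ?_⟩
    simp only [Finset.mem_biUnion]
    refine ⟨b', Finset.mem_erase.2 ⟨fun e => hab (e ▸ h2), mem_nb.2 ⟨hb', h5⟩⟩,
      Finset.mem_erase.2 ⟨fun e => hab (e ▸ h4), h2⟩⟩

theorem card_cover {N : B → Finset A} {b0 : B} {β : ℕ} (hβ : ∀ f, (ball N b0 f).card ≤ β)
    {S F : Finset A} (hS : ∀ a ∈ S, a ∉ N b0) (hF : F ⊆ S)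
    (h : ∀ a ∈ S, a ∈ F ∨ ∃ f ∈ F, Conf N f a) : S.card ≤ F.card * β := by
  have h1 : S ⊆ F.biUnion (ball N b0) := by
    intro a ha
    rw [Finset.mem_biUnion]
    rcases h a ha with h2 | ⟨f, h2, h3⟩
    · exact ⟨a, h2, Finset.mem_insert_self _ _⟩
    · exact ⟨f, h2, mem_ball (hS f (hF h2)) (hS a ha) h3⟩
  exact (Finset.card_le_card h1).trans (Finset.card_biUnion_le_card_mul _ _ _ fun f _ => hβ f)

theorem rr_eq {N : B → Finset A} {b0 : B} {a : A} (ha : a ∉ N b0) :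
    rr N a = (nb N b0 a).card := by
  unfold rr nb
  congr 1
  refine Finset.filter_congr fun b _ => ?_
  exact ⟨fun h => ⟨fun e => ha (e ▸ h), h⟩, fun h => h.2⟩

theorem qq_le {N : B → Finset A} {b0 : B} {D : ℕ} (hA : ∀ a, (nb N b0 a).card ≤ D)
    (hB : ∀ b, b ≠ b0 → (N b).card ≤ D) {a : A} (ha : a ∉ N b0) :
    qq N b0 a ≤ D * ((D - 1) * (D - 1)) := by
  unfold qq
  have h1 : (univ.filter fun b => b ≠ b0 ∧ a ∉ N b ∧ ∃ b', a ∈ N b' ∧ ¬ Disjoint (N b) (N b')) ⊆
      (nb N b0 a).biUnion fun b' => ((N b').erase a).biUnion fun v => (nb N b0 v).erase b' := by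
    intro b hb
    rw [Finset.mem_filter] at hb
    obtain ⟨-, h1, h2, b', h3, h4⟩ := hb
    rw [Finset.not_disjoint_iff] at h4
    obtain ⟨v, h5, h6⟩ := h4
    simp only [Finset.mem_biUnion]
    refine ⟨b', mem_nb.2 ⟨fun e => ha (e ▸ h3), h3⟩, v, Finset.mem_erase.2 ⟨?_, h6⟩,
      Finset.mem_erase.2 ⟨?_, mem_nb.2 ⟨h1, h5⟩⟩⟩
    · rintro rfl
      exact h2 h5
    · rintro rfl
      exact h2 h3
  refine (Finset.card_le_card h1).trans ?_
  refine (Finset.card_biUnion_le_card_mul _ _ ((D - 1) * (D - 1)) fun b' hb' => ?_).trans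
    (Nat.mul_le_mul_right _ (hA a))
  have hb2 := mem_nb.1 hb'
  have h2 : ((N b').erase a).card ≤ D - 1 := by
    rw [Finset.card_erase_of_mem hb2.2]
    exact Nat.sub_le_sub_right (hB b' hb2.1) 1
  refine (Finset.card_biUnion_le_card_mul _ _ (D - 1) fun v hv => ?_).trans
    (Nat.mul_le_mul_right _ h2)
  rw [Finset.card_erase_of_mem (mem_nb.2 ⟨hb2.1, (Finset.mem_erase.1 hv).2⟩)]
  exact Nat.sub_le_sub_right (hA v) 1

/-- the cost of one block -/
theorem cost_le {N : B → Finset A} {b0 : B} {D D' : ℕ} (hD' : D' ≤ D)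
    (hA : ∀ a, (nb N b0 a).card ≤ D) (hB : ∀ b, b ≠ b0 → (N b).card ≤ D) {a : A}
    (ha : a ∉ N b0) :
    rr N a * (1 + qq N b0 a + D' * (rr N a - 1))
      ≤ D * (1 + D * ((D - 1) * (D - 1)) + D * (D - 1)) := by
  have h1 := qq_le hA hB ha
  have h2 : rr N a ≤ D := (rr_eq ha).trans_le (hA a)
  have h4 : D' * (rr N a - 1) ≤ D * (D - 1) := Nat.mul_le_mul hD' (Nat.sub_le_sub_right h2 1)
  exact Nat.mul_le_mul h2 (by omega)

/-- a median -/
theorem exists_median {α : Type} (S : Finset α) (f : α → ℕ) {D : ℕ} (hD : 1 ≤ D)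
    (hf : ∀ a ∈ S, 1 ≤ f a ∧ f a ≤ D) :
    ∃ j, 1 ≤ j ∧ j ≤ D ∧ S.card ≤ 2 * (S.filter fun a => f a ≤ j).card ∧
      S.card ≤ 2 * (S.filter fun a => j ≤ f a).card := by
  classical
  have hP : ∃ j, S.card ≤ 2 * (S.filter fun a => f a ≤ j).card := by
    refine ⟨D, ?_⟩
    rw [Finset.filter_true_of_mem fun a ha => (hf a ha).2]
    omega
  have h1 := Nat.find_spec hP
  have h2 : Nat.find hP ≤ D := by
    refine Nat.find_min' hP ?_
    rw [Finset.filter_true_of_mem fun a ha => (hf a ha).2]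
    omega
  rcases Nat.eq_zero_or_pos (Nat.find hP) with h0 | h0
  · rw [h0] at h1
    have h3 : (S.filter fun a => f a ≤ 0) = ∅ := by
      rw [Finset.filter_eq_empty_iff]
      intro a ha h
      have := (hf a ha).1
      omega
    rw [h3, Finset.card_empty] at h1
    exact ⟨1, le_refl _, hD, by omega, by omega⟩
  · obtain ⟨j, hj⟩ : ∃ j, Nat.find hP = j + 1 := ⟨Nat.find hP - 1, by omega⟩
    refine ⟨Nat.find hP, h0, h2, h1, ?_⟩
    have h3 : ¬ S.card ≤ 2 * (S.filter fun a => f a ≤ j).card := Nat.find_min hP (by omega)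
    have h4 := Finset.card_filter_add_card_filter_not (s := S) (fun a => f a ≤ j)
    have h5 : (S.filter fun a => ¬ f a ≤ j) = S.filter fun a => Nat.find hP ≤ f a := by
      refine Finset.filter_congr fun a _ => ?_
      rw [hj]
      omega
    rw [h5] at h4
    omega

/-- the gains of the empty family -/
theorem le_gam {N : B → Finset A} {b0 : B} (D' : ℕ) :
    (univ.filter fun b => b ≠ b0 ∧ D' ≤ (N b).card).card ≤ gam N b0 ∅ D' := by
  unfold gam
  rw [Finset.card_eq_sum_ones]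
  have h1 : (univ.filter fun b => b ≠ b0 ∧ D' ≤ (N b).card) ⊆
      univ.filter (fun b => b ≠ b0 ∧ ∀ a ∈ (∅ : Finset A), a ∉ N b) := by
    intro b hb
    rw [Finset.mem_filter] at hb ⊢
    exact ⟨hb.1, hb.2.1, by simp⟩
  refine le_trans (Finset.sum_le_sum fun b hb => ?_) (Finset.sum_le_sum_of_subset h1)
  have h2 : Blk N ∅ = ∅ := by
    unfold Blk
    simp
  rw [h2, Finset.sdiff_empty]
  have := (Finset.mem_filter.1 hb).2.2
  omega

/-- the choice of the centres -/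
theorem choice {N : B → Finset A} {b0 : B} {D : ℕ} (hD : 1 ≤ D) (hub : (N b0).Nonempty)
    (hA : ∀ a, (nb N b0 a).card ≤ D) (hB : ∀ b, b ≠ b0 → (N b).card ≤ D) {S : Finset A}
    (hS : ∀ a ∈ S, a ∉ N b0 ∧ Acyc N a) :
    ∃ (D' s0 s1 f1 : ℕ) (F : Finset A), 1 ≤ D' ∧ Blocks2 N b0 F D' ∧ S.card = s0 + s1 ∧
      F.card = s0 + f1 ∧ f1 ≤ s1 ∧
      KK N b0 F D' ≤ f1 * (D * (1 + D * ((D - 1) * (D - 1)) + D * (D - 1))) ∧
      s1 ≤ 2 * (f1 * (1 + D * ((D - 1) * (1 + (D - 1) * (D - 1))))) ∧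
      s1 ≤ 2 * (gam N b0 ∅ D' * D) := by
  classical
  set S0 := S.filter fun a => rr N a = 0 with hS0
  set S1 := S.filter fun a => ¬ rr N a = 0 with hS1
  have hc : S0.card + S1.card = S.card :=
    Finset.card_filter_add_card_filter_not (s := S) (fun a => rr N a = 0)
  have hS1S : ∀ a ∈ S1, a ∉ N b0 ∧ Acyc N a := fun a ha => hS a (Finset.mem_filter.1 ha).1
  have hne : ∀ a ∈ S1, (nb N b0 a).Nonempty := by
    intro a ha
    rw [← Finset.card_pos, ← rr_eq (hS1S a ha).1]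
    exact Nat.pos_of_ne_zero (Finset.mem_filter.1 ha).2
  have hcl : ∀ a ∈ S1, 1 ≤ cl N b0 a ∧ cl N b0 a ≤ D := by
    intro a ha
    constructor
    · obtain ⟨b, hb⟩ := hne a ha
      have h1 : (N b).card ≤ cl N b0 a := Finset.le_sup (f := fun b => (N b).card) hb
      have h2 : 0 < (N b).card := Finset.card_pos.2 ⟨a, (mem_nb.1 hb).2⟩
      omega
    · exact Finset.sup_le fun b hb => hB b (mem_nb.1 hb).1
  obtain ⟨D', h1, h2, h3, h4⟩ := exists_median S1 (cl N b0) hD hcl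
  set S2 := S1.filter fun a => cl N b0 a ≤ D' with hS2
  obtain ⟨F1, f1, f2, f3⟩ := exists_far (Conf N) (fun _ _ h => h.symm) S2
  have hF1S1 : F1 ⊆ S1 := f1.trans (Finset.filter_subset _ _)
  have hdisj : Disjoint S0 F1 := by
    rw [Finset.disjoint_left]
    intro a ha hb
    exact (Finset.mem_filter.1 (hF1S1 hb)).2 (Finset.mem_filter.1 ha).2
  have hS0b : ∀ a ∈ S0, ∀ b, a ∉ N b := by
    intro a ha b hb
    have h5 : rr N a = 0 := (Finset.mem_filter.1 ha).2
    unfold rr at h5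
    rw [Finset.card_eq_zero] at h5
    have : b ∈ (∅ : Finset B) := by
      rw [← h5]
      simp [hb]
    simp at this
  refine ⟨D', S0.card, S1.card, F1.card, S0 ∪ F1, h1, ?_, hc.symm,
    Finset.card_union_of_disjoint hdisj, Finset.card_le_card hF1S1, ?_, ?_, ?_⟩
  · refine ⟨hub, ?_, ?_, ?_, ?_⟩
    · intro a ha
      rcases Finset.mem_union.1 ha with h | h
      · exact (hS a (Finset.mem_filter.1 h).1).1
      · exact (hS1S a (hF1S1 h)).1
    · intro a ha b hab
      rcases Finset.mem_union.1 ha with h | h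
      · exact absurd hab (hS0b a h b)
      · have h5 : a ∉ N b0 := (hS1S a (hF1S1 h)).1
        have h6 : (N b).card ≤ cl N b0 a :=
          Finset.le_sup (f := fun b => (N b).card) (mem_nb.2 ⟨fun e => h5 (e ▸ hab), hab⟩)
        exact h6.trans (Finset.mem_filter.1 (f1 h)).2
    · intro a ha
      rcases Finset.mem_union.1 ha with h | h
      · exact (hS a (Finset.mem_filter.1 h).1).2
      · exact (hS1S a (hF1S1 h)).2
    · intro a ha a' ha' hne' b b' hb hb'
      rcases Finset.mem_union.1 ha with h | h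
      · exact absurd hb (hS0b a h b)
      rcases Finset.mem_union.1 ha' with h' | h'
      · exact absurd hb' (hS0b a' h' b')
      by_contra h7
      exact f2 a h a' h' hne' ⟨b, b', hb, hb', h7⟩
  · unfold KK
    rw [Finset.sum_union hdisj]
    have h5 : ∑ a ∈ S0, rr N a * (1 + qq N b0 a + D' * (rr N a - 1)) = 0 :=
      Finset.sum_eq_zero fun a ha => by
        rw [(Finset.mem_filter.1 ha).2, zero_mul]
    rw [h5, zero_add, ← smul_eq_mul]
    exact Finset.sum_le_card_nsmul _ _ _ fun a ha => cost_le h2 hA hB (hS1S a (hF1S1 ha)).1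
  · have h5 := card_cover (N := N) (b0 := b0) (card_ball hA hB) (S := S2) (F := F1)
      (fun a ha => (hS1S a (Finset.mem_filter.1 ha).1).1) f1 f3
    omega
  · have h5 : (S1.filter fun a => D' ≤ cl N b0 a).card
        ≤ (univ.filter fun b => b ≠ b0 ∧ D' ≤ (N b).card).card * D := by
      have h6 : (S1.filter fun a => D' ≤ cl N b0 a) ⊆
          (univ.filter fun b => b ≠ b0 ∧ D' ≤ (N b).card).biUnion N := by
        intro a ha
        rw [Finset.mem_filter] at ha
        obtain ⟨b, hb, hb2⟩ := Finset.exists_mem_eq_sup (nb N b0 a) (hne a ha.1)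
          fun b => (N b).card
        rw [Finset.mem_biUnion]
        refine ⟨b, ?_, (mem_nb.1 hb).2⟩
        rw [Finset.mem_filter]
        exact ⟨Finset.mem_univ _, (mem_nb.1 hb).1, ha.2.trans (le_of_eq hb2)⟩
      refine (Finset.card_le_card h6).trans (Finset.card_biUnion_le_card_mul _ _ _ fun b hb => ?_)
      exact hB b (Finset.mem_filter.1 hb).2.1
    have h6 := Nat.mul_le_mul_right D (le_gam (N := N) (b0 := b0) D')
    omega

end comb

/-- the mixture of the two estimates -/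
theorem arith {E L T g n K γ s0 s1 f1 β κ D C : ℝ} (hL : L ≤ 0) (hg : 0 ≤ g) (hn : 0 ≤ n)
    (hK : 0 ≤ K) (hγ : 0 ≤ γ) (hs0 : 0 ≤ s0) (hf1 : 0 ≤ f1) (hκ : 0 ≤ κ)
    (h0 : E * L + n * g ≤ T) (hF : (E - (s0 + f1)) * L + (γ - K) * g ≤ T)
    (h1 : K ≤ f1 * κ) (h2 : s1 ≤ 2 * (f1 * β)) (h3 : s1 ≤ 2 * (n * D)) (h4 : f1 ≤ s1)
    (h5 : 2 * β + 2 * D * κ ≤ C) (h6 : 2 * D * κ + 1 ≤ C) (hC : 1 ≤ C) :
    (C * E - (s0 + s1)) * L ≤ C * T := by
  rcases (add_nonneg hn hK).eq_or_lt with h | h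
  · have hn0 : n = 0 := by linarith
    have hs1 : s1 = 0 := by
      rw [hn0] at h3
      have : 0 ≤ s1 := hf1.trans h4
      linarith
    have hf10 : f1 = 0 := by linarith
    have hK0 : K = 0 := by linarith
    rw [hf10, hK0] at hF
    rw [hs1]
    have e1 : (E - s0) * L ≤ T := by
      have := mul_nonneg hγ hg
      nlinarith
    have e2 := mul_le_mul_of_nonneg_left e1 (zero_le_one.trans hC)
    have e3 : s0 * L * C ≤ s0 * L * 1 :=
      mul_le_mul_of_nonpos_left hC (mul_nonpos_of_nonneg_of_nonpos hs0 hL)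
    nlinarith
  · have m1 := mul_le_mul_of_nonneg_left hF hn
    have m2 := mul_le_mul_of_nonneg_left h0 hK
    have m3 := mul_nonneg (mul_nonneg hn hγ) hg
    have m4 : (n + K) * E * L - n * (s0 + f1) * L ≤ (n + K) * T := by nlinarith
    have hs1 : 0 ≤ s1 := hf1.trans h4
    have c1 : (n + K) * (s0 + s1) ≤ C * (n * (s0 + f1)) := by
      have a1 : K * s0 ≤ (C - 1) * (n * s0) := by
        calc K * s0 ≤ f1 * κ * s0 := mul_le_mul_of_nonneg_right h1 hs0
          _ ≤ (2 * (n * D)) * κ * s0 := by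
              refine mul_le_mul_of_nonneg_right (mul_le_mul_of_nonneg_right ?_ hκ) hs0
              exact h4.trans h3
          _ = (2 * D * κ) * (n * s0) := by ring
          _ ≤ (C - 1) * (n * s0) :=
              mul_le_mul_of_nonneg_right (by linarith) (mul_nonneg hn hs0)
      have a2 : n * s1 ≤ n * (2 * (f1 * β)) := mul_le_mul_of_nonneg_left h2 hn
      have a3 : K * s1 ≤ f1 * κ * (2 * (n * D)) :=
        mul_le_mul h1 h3 hs1 (mul_nonneg hf1 hκ)
      have a4 : (2 * β + 2 * D * κ) * (n * f1) ≤ C * (n * f1) :=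
        mul_le_mul_of_nonneg_right h5 (mul_nonneg hn hf1)
      nlinarith
    have c2 := mul_le_mul_of_nonpos_right c1 hL
    have c3 := mul_le_mul_of_nonneg_left m4 (zero_le_one.trans hC)
    have c4 : (n + K) * ((C * E - (s0 + s1)) * L) ≤ (n + K) * (C * T) := by nlinarith
    exact le_of_mul_le_mul_left c4 h

theorem pp_le_one {X Y : Type} [Fintype X] [Fintype Y] {α : X → ℝ} {c : Y → ℝ} {W : X → Y → ℝ}
    (α0 : ∀ x, 0 ≤ α x) (α1 : ∑ x, α x = 1) (c0 : ∀ y, 0 ≤ c y) (c1 : ∑ y, c y = 1)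
    (W1 : ∀ x y, W x y ≤ 1) : pp α c W ≤ 1 := by
  unfold pp
  calc ∑ x, ∑ y, α x * c y * W x y ≤ ∑ x, ∑ y, α x * c y :=
        Finset.sum_le_sum fun x _ => Finset.sum_le_sum fun y _ => by
          have := mul_le_mul_of_nonneg_left (W1 x y) (mul_nonneg (α0 x) (c0 y))
          rwa [mul_one] at this
    _ = 1 := by
        simp_rw [← Finset.mul_sum, c1, mul_one]
        exact α1

end F4

/-- **Bounded degrees.** -/
theorem f4 (hcore : CoreStmt2) (hg : GNonneg) {A B X Y : Type} [Fintype A] [DecidableEq A]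
    [Fintype B] [DecidableEq B] [Fintype X] [Fintype Y] {α : X → ℝ} {c : Y → ℝ} {W : X → Y → ℝ}
    {N : B → Finset A} {b0 : B} {D : ℕ} (α0 : ∀ x, 0 ≤ α x) (α1 : ∑ x, α x = 1)
    (c0 : ∀ y, 0 ≤ c y) (c1 : ∑ y, c y = 1) (W0 : ∀ x y, 0 ≤ W x y) (W1 : ∀ x y, W x y ≤ 1)
    (hp : 0 < pp α c W) (hD : 2 ≤ D) (hub : (N b0).Nonempty)
    (hA : ∀ a, (univ.filter fun b => b ≠ b0 ∧ a ∈ N b).card ≤ D)
    (hB : ∀ b, b ≠ b0 → (N b).card ≤ D) (S : Finset A)
    (hS : ∀ a ∈ S, a ∉ N b0 ∧ Acyc N a) :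
    0 < tt α c W N ∧
    (2 * (D : ℝ) ^ 5 * ((∑ b, ((N b).card : ℝ)) + Fintype.card A - (N b0).card) - S.card)
      * Real.log (pp α c W) ≤ 2 * (D : ℝ) ^ 5 * Real.log (tt α c W N) := by
  classical
  obtain ⟨D', s0, s1, f1, F, h1, hBl, h2, h3, h4, h5, h6, h7⟩ :=
    F4.choice (by omega : 1 ≤ D) hub hA hB hS
  have hempty : Blocks2 N b0 ∅ D' := ⟨hub, by simp, by simp, by simp, by simp⟩
  obtain ⟨ht, e0⟩ := hcore A B X Y α c W N b0 ∅ D' α0 α1 c0 c1 W0 hp h1 hempty
    fun _ _ _ => W1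
  obtain ⟨-, eF⟩ := hcore A B X Y α c W N b0 F D' α0 α1 c0 c1 W0 hp h1 hBl fun _ _ _ => W1
  have hgn := hg X Y α c W (D' - 1) α0 α1 c0 c1 W0 hp
  have hL : Real.log (pp α c W) ≤ 0 := Real.log_nonpos hp.le (F4.pp_le_one α0 α1 c0 c1 W1)
  refine ⟨ht, ?_⟩
  have hK0 : KK N b0 ∅ D' = 0 := by
    unfold KK
    simp
  rw [hK0] at e0
  have hDr : (2 : ℝ) ≤ D := by exact_mod_cast hD
  obtain ⟨G, rfl⟩ : ∃ G, D = G + 1 := ⟨D - 1, by omega⟩
  simp only [Nat.add_sub_cancel] at h5 h6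
  have h5' : (KK N b0 F D' : ℝ) ≤ f1 * (((G : ℝ) + 1) * (1 + ((G : ℝ) + 1) * ((G : ℝ) * G)
      + ((G : ℝ) + 1) * G)) := by exact_mod_cast h5
  have h6' : (s1 : ℝ) ≤ 2 * (f1 * (1 + ((G : ℝ) + 1) * ((G : ℝ) * (1 + (G : ℝ) * G)))) := by
    exact_mod_cast h6
  have h7' : (s1 : ℝ) ≤ 2 * ((gam N b0 ∅ D' : ℝ) * ((G : ℝ) + 1)) := by exact_mod_cast h7
  have hG1 : (1 : ℝ) ≤ G := by
    push_cast at hDr
    linarith
  have hS' : (S.card : ℝ) = (s0 : ℝ) + s1 := by exact_mod_cast h2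
  have hF' : (F.card : ℝ) = (s0 : ℝ) + f1 := by exact_mod_cast h3
  set G' : ℝ := (G : ℝ) with hG'
  obtain ⟨t, ht'⟩ : ∃ t, t = G' - 1 := ⟨_, rfl⟩
  have ht0 : 0 ≤ t := by linarith
  have hGt : G' = t + 1 := by linarith
  have key := F4.arith (E := (∑ b, ((N b).card : ℝ)) + Fintype.card A - (N b0).card)
    (L := Real.log (pp α c W)) (T := Real.log (tt α c W N)) (g := gg α c W (D' - 1))
    (n := gam N b0 ∅ D') (K := KK N b0 F D') (γ := gam N b0 F D') (s0 := s0) (s1 := s1)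
    (f1 := f1) (β := 1 + (G' + 1) * (G' * (1 + G' * G')))
    (κ := (G' + 1) * (1 + (G' + 1) * (G' * G') + (G' + 1) * G')) (D := G' + 1)
    (C := 2 * (G' + 1) ^ 5) hL hgn (Nat.cast_nonneg _) (Nat.cast_nonneg _) (Nat.cast_nonneg _)
    (Nat.cast_nonneg _) (Nat.cast_nonneg _) (by positivity)
    (by
      refine le_trans (le_of_eq ?_) e0
      simp only [Finset.card_empty, Nat.cast_zero]
      ring)
    (by
      refine le_trans (le_of_eq ?_) eF
      rw [hF']
      ring)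
    h5' h6' h7' (by exact_mod_cast h4)
    (by
      rw [hGt]
      have := pow_nonneg ht0 2
      have := pow_nonneg ht0 3
      have := pow_nonneg ht0 4
      have := pow_nonneg ht0 5
      ring_nf
      nlinarith)
    (by
      rw [hGt]
      have := pow_nonneg ht0 2
      have := pow_nonneg ht0 3
      have := pow_nonneg ht0 4
      have := pow_nonneg ht0 5
      ring_nf
      nlinarith)
    (by
      have : (1 : ℝ) ≤ (G' + 1) ^ 5 := one_le_pow₀ (by linarith)
      linarith)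
  rw [hS']
  push_cast
  exact key

end Vale.Agent.P050.R2.H128
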