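import Vale.Agent.P050.R2.H901.Prob

/-!
An inequality for acyclic families of arms (running intersection order).
`kap i` are the arms; `u` is symmetric; all the laws on the arms are `eps`.
-/

namespace Vale.Agent.P050.R2.H128

open Finset
open Vale.Agent.P050.R2.H901 (wt sum_wt_one wt_nonneg marg wt_mix)

namespace Hyp

variable {V X : Type} [Fintype V] [DecidableEq V] [Fintype X]

/-- keep the coordinates in `P`, take the others from `σ` -/
def mg {k : ℕ} (P : Finset (Fin k)) (ρ σ : Fin k → X) : Fin k → X :=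
  fun m => if m ∈ P then ρ m else σ m

omit [Fintype X] in
theorem mg_self {k : ℕ} (P : Finset (Fin k)) (ρ : Fin k → X) : mg P ρ ρ = ρ := by
  funext m
  simp [mg]

omit [Fintype X] in
theorem mg_congr {k : ℕ} {P : Finset (Fin k)} {ρ ρ' : Fin k → X} (h : ∀ m ∈ P, ρ m = ρ' m)
    (σ : Fin k → X) : mg P ρ σ = mg P ρ' σ := by
  funext m
  unfold mg
  split_ifs with hm
  · exact h m hm
  · rfl

/-- integrate out the coordinates of `κ` outside `P` -/
theorem marg2 {μ : V → X → ℝ} {eps : X → ℝ} (h1 : ∀ v, ∑ ξ, μ v ξ = 1) {k : ℕ} {κ : Fin k → V}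
    (hκ : Function.Injective κ) (hk : ∀ m, μ (κ m) = eps) (P : Finset (Fin k))
    {Φ : (V → X) → ℝ}
    (hΦ : ∀ x x' : V → X, (∀ v, (∀ m, m ∉ P → v ≠ κ m) → x v = x' v) → Φ x = Φ x')
    (h : (Fin k → X) → ℝ) :
    ∑ x, wt μ x * (Φ x * h (fun m => x (κ m)))
      = ∑ x, wt μ x * (Φ x * ∑ σ : Fin k → X, (∏ m, eps (σ m)) * h (mg P (fun m => x (κ m)) σ)) := by
  classical
  have e1 : ∀ x : V → X, ∑ σ : Fin k → X, (∏ m, eps (σ m)) * h (mg P (fun m => x (κ m)) σ)
      = ∑ x' : V → X, wt μ x' * h (mg P (fun m => x (κ m)) (fun m => x' (κ m))) := by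
    intro x
    rw [marg h1 hκ (fun σ => h (mg P (fun m => x (κ m)) σ))]
    simp only [hk]
  simp_rw [e1]
  set T : Finset V := univ.filter fun v => ∀ m, m ∉ P → v ≠ κ m with hT
  have e2 : ∑ x : V → X, wt μ x * (Φ x * h (fun m => x (κ m)))
      = ∑ p : (V → X) × (V → X), wt μ p.1 * wt μ p.2 * (Φ p.1 * h (fun m => p.1 (κ m))) := by
    rw [← Finset.univ_product_univ, Finset.sum_product]
    refine Finset.sum_congr rfl fun x _ => ?_
    have : ∑ y : V → X, wt μ x * wt μ y * (Φ x * h (fun m => x (κ m)))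
        = wt μ x * (Φ x * h (fun m => x (κ m))) * ∑ y : V → X, wt μ y := by
      rw [Finset.mul_sum]
      refine Finset.sum_congr rfl fun y _ => ?_
      ring
    rw [this, sum_wt_one h1, mul_one]
  rw [e2, ← Equiv.sum_comp (Vale.Agent.P050.R2.H901.mix (X := X) T)
    (fun p : (V → X) × (V → X) => wt μ p.1 * wt μ p.2 * (Φ p.1 * h (fun m => p.1 (κ m)))),
    ← Finset.univ_product_univ, Finset.sum_product]
  refine Finset.sum_congr rfl fun x _ => ?_
  rw [Finset.mul_sum, Finset.mul_sum]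
  refine Finset.sum_congr rfl fun x' _ => ?_
  rw [wt_mix]
  have h2 : Φ (Vale.Agent.P050.R2.H901.mix (X := X) T (x, x')).1 = Φ x := by
    refine hΦ _ _ fun v hv => ?_
    have : v ∈ T := by simpa [hT] using hv
    simp [Vale.Agent.P050.R2.H901.mix, this]
  have h3 : (fun m => (Vale.Agent.P050.R2.H901.mix (X := X) T (x, x')).1 (κ m))
      = mg P (fun m => x (κ m)) (fun m => x' (κ m)) := by
    funext m
    by_cases hm : m ∈ P
    · have : κ m ∈ T := by
        simp only [hT, Finset.mem_filter, Finset.mem_univ, true_and]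
        intro m' hm' e
        exact hm' (hκ e ▸ hm)
      simp [Vale.Agent.P050.R2.H901.mix, this, mg, hm]
    · have : κ m ∉ T := by
        simp only [hT, Finset.mem_filter, Finset.mem_univ, true_and, not_forall]
        exact ⟨m, hm, fun h => h rfl⟩
      simp [Vale.Agent.P050.R2.H901.mix, this, mg, hm]
  rw [h2, h3]
  ring

/-- the conditional expectation of `g` given the coordinates in `P` -/
noncomputable def GG {k : ℕ} (eps : X → ℝ) (P : Finset (Fin k)) (g : (Fin k → X) → ℝ)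
    (ρ : Fin k → X) : ℝ := ∑ σ : Fin k → X, (∏ m, eps (σ m)) * g (mg P ρ σ)

theorem GG_congr {k : ℕ} (eps : X → ℝ) {P : Finset (Fin k)} (g : (Fin k → X) → ℝ)
    {ρ ρ' : Fin k → X} (h : ∀ m ∈ P, ρ m = ρ' m) : GG eps P g ρ = GG eps P g ρ' := by
  unfold GG
  refine Finset.sum_congr rfl fun σ _ => ?_
  rw [mg_congr h]

theorem GG_nonneg {k : ℕ} {eps : X → ℝ} (he : ∀ ξ, 0 ≤ eps ξ) (P : Finset (Fin k))
    {g : (Fin k → X) → ℝ} (hg : ∀ ρ, 0 ≤ g ρ) (ρ : Fin k → X) : 0 ≤ GG eps P g ρ :=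
  Finset.sum_nonneg fun _ _ => mul_nonneg (Finset.prod_nonneg fun _ _ => he _) (hg _)

/-- the Gibbs step -/
theorem gibbs {k : ℕ} {eps : X → ℝ} (he : ∀ ξ, 0 ≤ eps ξ) (he1 : ∑ ξ, eps ξ = 1)
    (P : Finset (Fin k)) {u f : (Fin k → X) → ℝ} (hu : ∀ ρ, 0 ≤ u ρ)
    (hu1 : ∑ ρ : Fin k → X, (∏ m, eps (ρ m)) * u ρ = 1) (hf0 : ∀ ρ, 0 ≤ f ρ)
    (hf : ∀ ρ, (∏ m, eps (ρ m)) * u ρ ≠ 0 → 0 < f ρ) :
    (∀ ρ, (∏ m, eps (ρ m)) * u ρ ≠ 0 → 0 < GG eps P (fun ρ => u ρ * f ρ) ρ) ∧
    ∑ ρ : Fin k → X, (∏ m, eps (ρ m)) * u ρ * Real.log (f ρ)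
      ≤ ∑ ρ : Fin k → X, (∏ m, eps (ρ m)) * u ρ
          * Real.log (GG eps P (fun ρ => u ρ * f ρ) ρ) := by
  classical
  have hw : ∀ ρ : Fin k → X, 0 ≤ ∏ m, eps (ρ m) := fun ρ => Finset.prod_nonneg fun _ _ => he _
  have hpos : ∀ ρ, (∏ m, eps (ρ m)) * u ρ ≠ 0 → 0 < GG eps P (fun ρ => u ρ * f ρ) ρ := by
    intro ρ hρ
    have h0 : 0 < (∏ m, eps (ρ m)) * u ρ :=
      lt_of_le_of_ne (mul_nonneg (hw ρ) (hu ρ)) (Ne.symm hρ)
    refine lt_of_lt_of_le (mul_pos h0 (hf ρ hρ)) ?_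
    have h1 := Finset.single_le_sum
      (f := fun σ : Fin k → X => (∏ m, eps (σ m)) * (u (mg P ρ σ) * f (mg P ρ σ)))
      (fun σ _ => mul_nonneg (hw σ) (mul_nonneg (hu _) (hf0 _))) (Finset.mem_univ ρ)
    simp only [mg_self] at h1
    rw [mul_assoc]
    exact h1
  refine ⟨hpos, ?_⟩
  set G := GG eps P (fun ρ => u ρ * f ρ) with hG
  have key : ∀ ρ : Fin k → X, (∏ m, eps (ρ m)) * u ρ * Real.log (f ρ)
      ≤ (∏ m, eps (ρ m)) * u ρ * Real.log (G ρ)
        + ((∏ m, eps (ρ m)) * ((G ρ)⁻¹ * (u ρ * f ρ)) - (∏ m, eps (ρ m)) * u ρ) := by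
    intro ρ
    by_cases h : (∏ m, eps (ρ m)) * u ρ = 0
    · have e : (∏ m, eps (ρ m)) * ((G ρ)⁻¹ * (u ρ * f ρ))
          = (∏ m, eps (ρ m)) * u ρ * ((G ρ)⁻¹ * f ρ) := by ring
      rw [e, h]
      simp
    · have hg := hpos ρ h
      have h1 := Real.log_le_sub_one_of_pos (div_pos (hf ρ h) hg)
      rw [Real.log_div (hf ρ h).ne' hg.ne'] at h1
      have h2 := mul_le_mul_of_nonneg_left h1 (mul_nonneg (hw ρ) (hu ρ))
      have e : (∏ m, eps (ρ m)) * u ρ * (f ρ / G ρ - 1)
          = (∏ m, eps (ρ m)) * ((G ρ)⁻¹ * (u ρ * f ρ)) - (∏ m, eps (ρ m)) * u ρ := by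
        rw [div_eq_mul_inv]
        ring
      rw [e, mul_sub] at h2
      linarith
  refine (Finset.sum_le_sum fun ρ _ => key ρ).trans ?_
  rw [Finset.sum_add_distrib, Finset.sum_sub_distrib, hu1]
  have hm := marg2 (V := Fin k) (X := X) (μ := fun _ => eps) (eps := eps) (fun _ => he1)
    (κ := fun m => m) (fun _ _ h => h) (fun _ => rfl) P (Φ := fun ρ => (G ρ)⁻¹)
    (fun x x' hx => by
      rw [hG, GG_congr eps (fun ρ => u ρ * f ρ) (ρ := x) (ρ' := x') fun m hm => hx m
        fun m' hm' e => hm' (e ▸ hm)])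
    (fun ρ => u ρ * f ρ)
  simp only [wt] at hm
  rw [hm]
  have hle : ∑ ρ : Fin k → X, (∏ m, eps (ρ m)) * ((G ρ)⁻¹
      * ∑ σ : Fin k → X, (∏ m, eps (σ m)) * (u (mg P ρ σ) * f (mg P ρ σ))) ≤ 1 := by
    have h1 : ∑ ρ : Fin k → X, (∏ m, eps (ρ m)) = 1 := by
      have := sum_wt_one (V := Fin k) (X := X) (μ := fun _ => eps) (fun _ => he1)
      simpa only [wt] using this
    rw [← h1]
    refine Finset.sum_le_sum fun ρ _ => ?_
    have e : ∑ σ : Fin k → X, (∏ m, eps (σ m)) * (u (mg P ρ σ) * f (mg P ρ σ)) = G ρ := rfl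
    rw [e]
    by_cases h : G ρ = 0
    · rw [h]
      simpa using hw ρ
    · rw [inv_mul_cancel₀ h, mul_one]
  linarith

omit [Fintype V] [DecidableEq V] in
/-- extension of a partial matching of positions to a permutation -/
theorem exists_perm {k : ℕ} {κ κ' : Fin k → V} (hκ' : Function.Injective κ')
    (P : Finset (Fin k)) (hP : ∀ m ∈ P, ∃ m'', κ m'' = κ' m) :
    ∃ π : Equiv.Perm (Fin k), ∀ m ∈ P, κ (π m) = κ' m := by
  classical
  choose! τ hτ using hP
  let τ' : {m // m ∈ P} → Fin k := fun m => τ m.1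
  have hinj : Function.Injective τ' := by
    intro a b hab
    have h1 := hτ a.1 a.2
    have h2 := hτ b.1 b.2
    apply Subtype.ext
    apply hκ'
    rw [← h1, ← h2]
    exact congrArg κ hab
  let e : {m // m ∈ P} ≃ {m // m ∈ Set.range τ'} := Equiv.ofInjective τ' hinj
  refine ⟨e.extendSubtype, fun m hm => ?_⟩
  rw [Equiv.extendSubtype_apply_of_mem e m hm]
  have : ((e ⟨m, hm⟩ : {m // m ∈ Set.range τ'}) : Fin k) = τ m := rfl
  rw [this]
  exact hτ m hm

/-- the main induction -/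
theorem main {μ : V → X → ℝ} {eps : X → ℝ} (h1 : ∀ v, ∑ ξ, μ v ξ = 1)
    (he : ∀ ξ, 0 ≤ eps ξ) (he1 : ∑ ξ, eps ξ = 1)
    {k : ℕ} {u : (Fin k → X) → ℝ} (hu : ∀ ρ, 0 ≤ u ρ)
    (hu1 : ∑ ρ : Fin k → X, (∏ m, eps (ρ m)) * u ρ = 1)
    (hs : ∀ (π : Equiv.Perm (Fin k)) ρ, u (ρ ∘ π) = u ρ) :
    ∀ (r : ℕ) (κ : Fin r → Fin k → V), (∀ i m, μ (κ i m) = eps) →
      (∀ i, Function.Injective (κ i)) →
      (∀ i : Fin r, 0 < i.val → ∃ j < i, ∀ l < i, ∀ m m', κ i m = κ l m' → ∃ m'', κ j m'' = κ i m) →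
      ∀ f : Fin r → (Fin k → X) → ℝ, (∀ i ρ, 0 ≤ f i ρ) →
      (∀ i ρ, (∏ m, eps (ρ m)) * u ρ ≠ 0 → 0 < f i ρ) →
      0 < ∑ x, wt μ x * ∏ i, (u (fun m => x (κ i m)) * f i (fun m => x (κ i m))) ∧
      ∑ i, ∑ ρ : Fin k → X, (∏ m, eps (ρ m)) * u ρ * Real.log (f i ρ)
        ≤ Real.log (∑ x, wt μ x * ∏ i, (u (fun m => x (κ i m)) * f i (fun m => x (κ i m)))) := by
  classical
  intro r
  induction r with
  | zero =>
    intro κ _ _ _ f _ _
    simp [sum_wt_one h1]
  | succ r ih =>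
    intro κ hk hi hr f hf0 hf
    set P : Finset (Fin k) := univ.filter fun m => ∃ l : Fin r, ∃ m', κ (Fin.last r) m
      = κ (Fin.castSucc l) m' with hP
    set G := GG eps P (fun ρ => u ρ * f (Fin.last r) ρ) with hG
    obtain ⟨g1, g2⟩ := gibbs he he1 P hu hu1 (hf0 (Fin.last r)) (hf (Fin.last r))
    rw [← hG] at g1 g2
    have hG0 : ∀ ρ, 0 ≤ G ρ := GG_nonneg he P fun ρ => mul_nonneg (hu ρ) (hf0 _ ρ)
    -- remove the last arm
    have hrem : ∑ x, wt μ x * ∏ i, (u (fun m => x (κ i m)) * f i (fun m => x (κ i m)))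
        = ∑ x, wt μ x * ((∏ i : Fin r, (u (fun m => x (κ (Fin.castSucc i) m))
            * f (Fin.castSucc i) (fun m => x (κ (Fin.castSucc i) m))))
            * G (fun m => x (κ (Fin.last r) m))) := by
      have := marg2 (μ := μ) (eps := eps) h1 (hi (Fin.last r)) (hk (Fin.last r)) P
        (Φ := fun x => ∏ i : Fin r, (u (fun m => x (κ (Fin.castSucc i) m))
            * f (Fin.castSucc i) (fun m => x (κ (Fin.castSucc i) m))))
        (fun x x' hx => by
          refine Finset.prod_congr rfl fun i _ => ?_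
          have e : (fun m => x (κ (Fin.castSucc i) m)) = fun m => x' (κ (Fin.castSucc i) m) := by
            funext m
            refine hx _ fun m' hm' e => hm' ?_
            simp only [hP, Finset.mem_filter, Finset.mem_univ, true_and]
            exact ⟨i, m, e.symm⟩
          rw [e])
        (fun ρ => u ρ * f (Fin.last r) ρ)
      rw [hG]
      unfold GG
      rw [← this]
      refine Finset.sum_congr rfl fun x _ => ?_
      rw [Fin.prod_univ_castSucc]
    rw [hrem, Fin.sum_univ_castSucc]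
    rcases Nat.eq_zero_or_pos r with h | h
    · subst h
      have hPe : P = ∅ := by
        rw [hP]
        ext m
        simp
      have hGc : ∀ ρ ρ', G ρ = G ρ' := fun ρ ρ' => by
        rw [hG]
        exact GG_congr eps _ fun m hm => by simp [hPe] at hm
      obtain ⟨ρ₀, hρ₀⟩ : ∃ ρ : Fin k → X, (∏ m, eps (ρ m)) * u ρ ≠ 0 := by
        by_contra hh
        have hh' : ∀ ρ : Fin k → X, (∏ m, eps (ρ m)) * u ρ = 0 := fun ρ => by
          by_contra h0
          exact hh ⟨ρ, h0⟩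
        simp [hh'] at hu1
      have hval : ∑ x, wt μ x * ((∏ i : Fin 0, (u (fun m => x (κ (Fin.castSucc i) m))
            * f (Fin.castSucc i) (fun m => x (κ (Fin.castSucc i) m))))
            * G (fun m => x (κ (Fin.last 0) m))) = G ρ₀ := by
        have : ∀ x : V → X, wt μ x * ((∏ i : Fin 0, (u (fun m => x (κ (Fin.castSucc i) m))
            * f (Fin.castSucc i) (fun m => x (κ (Fin.castSucc i) m))))
            * G (fun m => x (κ (Fin.last 0) m))) = wt μ x * G ρ₀ := fun x => by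
          rw [hGc _ ρ₀]
          simp
        simp_rw [this]
        rw [← Finset.sum_mul, sum_wt_one h1, one_mul]
      rw [hval]
      refine ⟨g1 ρ₀ hρ₀, ?_⟩
      simp only [Finset.univ_eq_empty, Finset.sum_empty, zero_add]
      refine g2.trans (le_of_eq ?_)
      have : ∀ ρ : Fin k → X, (∏ m, eps (ρ m)) * u ρ * Real.log (G ρ)
          = (∏ m, eps (ρ m)) * u ρ * Real.log (G ρ₀) := fun ρ => by rw [hGc ρ ρ₀]
      simp_rw [this]
      rw [← Finset.sum_mul, hu1, one_mul]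
    · obtain ⟨j, hj, hjP⟩ := hr (Fin.last r) (by simpa using h)
      obtain ⟨j', rfl⟩ : ∃ j' : Fin r, Fin.castSucc j' = j :=
        ⟨j.castPred (Fin.ne_last_of_lt hj), by simp⟩
      obtain ⟨π, hπ⟩ := exists_perm (κ := κ (Fin.castSucc j')) (hi (Fin.last r)) P
        (fun m hm => by
          simp only [hP, Finset.mem_filter, Finset.mem_univ, true_and] at hm
          obtain ⟨l, m', e⟩ := hm
          exact hjP (Fin.castSucc l) (Fin.castSucc_lt_last l) m m' e)
      -- the new weights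
      set f' : Fin r → (Fin k → X) → ℝ := fun i ρ =>
        f (Fin.castSucc i) ρ * (if i = j' then G (ρ ∘ π) else 1) with hf'
      have hsum : ∀ ρ : Fin k → X, (∏ m, eps ((ρ ∘ π) m)) * u (ρ ∘ π)
          = (∏ m, eps (ρ m)) * u ρ := by
        intro ρ
        rw [hs π ρ]
        congr 1
        exact Equiv.prod_comp π fun m => eps (ρ m)
      have hf'0 : ∀ i ρ, 0 ≤ f' i ρ := by
        intro i ρ
        rw [hf']
        refine mul_nonneg (hf0 _ _) ?_
        split_ifs
        · exact hG0 _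
        · exact zero_le_one
      have hf'1 : ∀ i ρ, (∏ m, eps (ρ m)) * u ρ ≠ 0 → 0 < f' i ρ := by
        intro i ρ hρ
        rw [hf']
        refine mul_pos (hf _ _ hρ) ?_
        split_ifs
        · exact g1 _ (by rw [hsum]; exact hρ)
        · exact zero_lt_one
      obtain ⟨k1, k2⟩ := ih (fun i => κ (Fin.castSucc i)) (fun i m => hk _ m) (fun i => hi _)
        (fun i hi0 => by
          obtain ⟨t, ht, htP⟩ := hr (Fin.castSucc i) (by simpa using hi0)
          obtain ⟨t', rfl⟩ : ∃ t' : Fin r, Fin.castSucc t' = t :=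
            ⟨t.castPred (Fin.ne_last_of_lt ht), by simp⟩
          exact ⟨t', by simpa using ht, fun l hl m m' e =>
            htP (Fin.castSucc l) (by simpa using hl) m m' e⟩)
        f' hf'0 hf'1
      have hprod : ∀ x : V → X, (∏ i : Fin r, (u (fun m => x (κ (Fin.castSucc i) m))
            * f (Fin.castSucc i) (fun m => x (κ (Fin.castSucc i) m))))
            * G (fun m => x (κ (Fin.last r) m))
          = ∏ i : Fin r, (u (fun m => x (κ (Fin.castSucc i) m))
            * f' i (fun m => x (κ (Fin.castSucc i) m))) := by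
        intro x
        have e1 : G (fun m => x (κ (Fin.last r) m))
            = G ((fun m => x (κ (Fin.castSucc j') m)) ∘ π) := by
          rw [hG]
          refine GG_congr eps _ fun m hm => ?_
          simp only [Function.comp]
          rw [hπ m hm]
        have e2 : ∀ i : Fin r, u (fun m => x (κ (Fin.castSucc i) m))
            * f' i (fun m => x (κ (Fin.castSucc i) m))
            = (u (fun m => x (κ (Fin.castSucc i) m))
              * f (Fin.castSucc i) (fun m => x (κ (Fin.castSucc i) m)))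
              * (if i = j' then G ((fun m => x (κ (Fin.castSucc i) m)) ∘ π) else 1) := by
          intro i
          rw [hf']
          ring
        rw [Finset.prod_congr rfl fun i _ => e2 i]
        symm
        rw [Finset.prod_mul_distrib, Finset.prod_ite_eq' univ j'
          (fun i => G ((fun m => x (κ (Fin.castSucc i) m)) ∘ π))]
        simp only [Finset.mem_univ, if_true]
        rw [e1]
      simp_rw [hprod]
      refine ⟨k1, le_trans ?_ k2⟩
      -- compare the sums of logarithms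
      have hlog : ∀ i : Fin r, ∑ ρ : Fin k → X, (∏ m, eps (ρ m)) * u ρ * Real.log (f' i ρ)
          = ∑ ρ : Fin k → X, (∏ m, eps (ρ m)) * u ρ * Real.log (f (Fin.castSucc i) ρ)
            + (if i = j' then ∑ ρ : Fin k → X, (∏ m, eps (ρ m)) * u ρ * Real.log (G ρ) else 0) := by
        intro i
        have e3 : ∀ ρ : Fin k → X, (∏ m, eps (ρ m)) * u ρ * Real.log (f' i ρ)
            = (∏ m, eps (ρ m)) * u ρ * Real.log (f (Fin.castSucc i) ρ)
              + (if i = j' then (∏ m, eps (ρ m)) * u ρ * Real.log (G (ρ ∘ π)) else 0) := by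
          intro ρ
          by_cases hρ : (∏ m, eps (ρ m)) * u ρ = 0
          · rw [hρ]
            simp
          · have p1 := hf (Fin.castSucc i) ρ hρ
            have p2 := g1 (ρ ∘ π) (by rw [hsum]; exact hρ)
            rw [hf']
            simp only
            split_ifs with hij
            · rw [Real.log_mul p1.ne' p2.ne']
              ring
            · simp
        simp_rw [e3]
        rw [Finset.sum_add_distrib]
        congr 1
        split_ifs with hij
        · have e4 := Equiv.sum_comp (Equiv.arrowCongr π.symm (Equiv.refl X))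
            (fun ρ : Fin k → X => (∏ m, eps (ρ m)) * u ρ * Real.log (G ρ))
          rw [← e4]
          refine Finset.sum_congr rfl fun ρ _ => ?_
          have e5 : (Equiv.arrowCongr π.symm (Equiv.refl X)) ρ = ρ ∘ π := by
            funext m
            simp [Equiv.arrowCongr]
          rw [e5, hsum]
        · simp
      simp_rw [hlog]
      rw [Finset.sum_add_distrib, Finset.sum_ite_eq' univ j']
      simp only [Finset.mem_univ, if_true]
      linarith

end Hyp

/-- **Acyclic families of arms**. -/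
theorem hyp {V X : Type} [Fintype V] [DecidableEq V] [Fintype X] (μ : V → X → ℝ) (eps : X → ℝ)
    {k r : ℕ} (κ : Fin r → Fin k → V) (u : (Fin k → X) → ℝ) (h0 : ∀ v x, 0 ≤ μ v x)
    (h1 : ∀ v, ∑ x, μ v x = 1) (hk : ∀ i m, μ (κ i m) = eps) (hu : ∀ ρ, 0 ≤ u ρ)
    (hs : ∀ (π : Equiv.Perm (Fin k)) ρ, u (ρ ∘ π) = u ρ) (hi : ∀ i, Function.Injective (κ i))
    (hr : ∀ i : Fin r, 0 < i.val → ∃ j < i, ∀ l < i, ∀ m m', κ i m = κ l m' →
      ∃ m'', κ j m'' = κ i m) :
    (∑ ρ : Fin k → X, (∏ j, eps (ρ j)) * u ρ) ^ r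
      ≤ ∑ x : V → X, wt μ x * ∏ i, u (fun m => x (κ i m)) := by
  classical
  rcases Nat.eq_zero_or_pos r with hr0 | hr0
  · subst hr0
    simp [sum_wt_one h1]
  rcases Nat.eq_zero_or_pos k with hk0 | hk0
  · subst hk0
    have e : ∀ ρ : Fin 0 → X, u ρ = u Fin.elim0 := fun ρ => congrArg u (funext fun m => m.elim0)
    have e2 : ∑ ρ : Fin 0 → X, (∏ j, eps (ρ j)) * u ρ = u Fin.elim0 := by
      simp [e]
    have e3 : ∀ x : V → X, wt μ x * ∏ i : Fin r, u (fun m => x (κ i m))
        = wt μ x * u Fin.elim0 ^ r := fun x => by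
      simp [e]
    rw [e2, Finset.sum_congr rfl fun x _ => e3 x, ← Finset.sum_mul, sum_wt_one h1, one_mul]
  have he : ∀ ξ, 0 ≤ eps ξ := fun ξ => by
    rw [← hk ⟨0, hr0⟩ ⟨0, hk0⟩]
    exact h0 _ _
  have he1 : ∑ ξ, eps ξ = 1 := by
    rw [← hk ⟨0, hr0⟩ ⟨0, hk0⟩]
    exact h1 _
  set E := ∑ ρ : Fin k → X, (∏ j, eps (ρ j)) * u ρ with hE
  have hE0 : 0 ≤ E := Finset.sum_nonneg fun ρ _ =>
    mul_nonneg (Finset.prod_nonneg fun _ _ => he _) (hu ρ)
  rcases hE0.eq_or_lt with h | h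
  · rw [← h, zero_pow hr0.ne']
    exact Finset.sum_nonneg fun x _ => mul_nonneg (wt_nonneg h0 x) (Finset.prod_nonneg fun _ _ => hu _)
  · obtain ⟨m1, m2⟩ := Hyp.main (μ := μ) (eps := eps) h1 he he1 (u := fun ρ => E⁻¹ * u ρ)
      (fun ρ => mul_nonneg (inv_nonneg.2 hE0) (hu ρ))
      (by
        have e : ∀ ρ : Fin k → X, (∏ m, eps (ρ m)) * (E⁻¹ * u ρ)
            = E⁻¹ * ((∏ m, eps (ρ m)) * u ρ) := fun ρ => by ring
        simp_rw [e]
        rw [← Finset.mul_sum, ← hE, inv_mul_cancel₀ h.ne'])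
      (fun π ρ => by simp only [hs π ρ]) r κ hk hi hr (fun _ _ => 1) (fun _ _ => zero_le_one)
      (fun _ _ _ => zero_lt_one)
    simp only [Real.log_one, mul_zero, Finset.sum_const_zero, mul_one] at m1 m2
    have m3 : 1 ≤ ∑ x, wt μ x * ∏ i, (E⁻¹ * u (fun m => x (κ i m))) := by
      rw [← Real.exp_log m1]
      exact Real.one_le_exp m2
    have e : ∀ x : V → X, wt μ x * ∏ i : Fin r, (E⁻¹ * u (fun m => x (κ i m)))
        = (E ^ r)⁻¹ * (wt μ x * ∏ i, u (fun m => x (κ i m))) := by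
      intro x
      rw [Finset.prod_mul_distrib, Finset.prod_const, Finset.card_univ, Fintype.card_fin,
        inv_pow]
      ring
    simp_rw [e] at m3
    rw [← Finset.mul_sum] at m3
    have hp : 0 < E ^ r := pow_pos h r
    have := mul_le_mul_of_nonneg_left m3 hp.le
    rwa [mul_one, ← mul_assoc, mul_inv_cancel₀ hp.ne', one_mul] at this

end Vale.Agent.P050.R2.H128
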