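import Vale.Agent.P050.R2.H128.WKer

set_option linter.all false

/-!
The information of a further point grows with the number of points.
-/

namespace Vale.Agent.P050.R2.H128

open Finset Vale.Agent.P050.R2.H901

section mono

variable {X Y : Type} [Fintype X] [Fintype Y] {α : X → ℝ} {c : Y → ℝ} {W : X → Y → ℝ}

theorem Pk_snoc {k : ℕ} (ρ : Fin k → X) (z : X) :
    Pk α c W (Fin.snoc ρ z : Fin (k + 1) → X) = Pk1 α c W ρ z := by
  unfold Pk Pk1
  refine sum_congr rfl fun y _ => ?_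
  rw [Fin.prod_univ_castSucc]
  simp only [Fin.snoc_castSucc, Fin.snoc_last]
  ring

theorem sum_Pk1_snoc (h : Ker α c W) {k : ℕ} (ρ : Fin k → X) (x : X) :
    ∑ z, Pk1 α c W (Fin.snoc ρ z : Fin (k + 1) → X) x = Pk1 α c W ρ x := by
  unfold Pk1
  rw [Finset.sum_comm]
  refine sum_congr rfl fun y _ => ?_
  simp only [Fin.prod_univ_castSucc, Fin.snoc_castSucc, Fin.snoc_last]
  by_cases hy : mm α c W y = 0
  · simp [hy]
  · have e : ∀ z : X, mm α c W y * ((∏ j, ee α W y (ρ j)) * ee α W y z) * ee α W y x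
        = mm α c W y * (∏ j, ee α W y (ρ j)) * ee α W y x * ee α W y z := fun z => by ring
    simp_rw [e]
    rw [← Finset.mul_sum, sum_ee h hy, mul_one]

theorem Pk1_ne_of_snoc (h : Ker α c W) {k : ℕ} {ρ : Fin k → X} {z x : X}
    (hP : Pk1 α c W (Fin.snoc ρ z : Fin (k + 1) → X) x ≠ 0) : Pk1 α c W ρ x ≠ 0 := by
  have h1 : 0 < Pk1 α c W (Fin.snoc ρ z : Fin (k + 1) → X) x :=
    lt_of_le_of_ne (Pk1_nonneg h _ x) (Ne.symm hP)
  rw [← sum_Pk1_snoc h ρ x]
  exact (lt_of_lt_of_le h1 (single_le_sum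
    (f := fun z => Pk1 α c W (Fin.snoc ρ z : Fin (k + 1) → X) x)
    (fun z _ => Pk1_nonneg h _ x) (mem_univ z))).ne'

theorem sum_alpha_ph (h : Ker α c W) {k : ℕ} (ρ : Fin k → X) :
    ∑ x, α x * ph α c W ρ x ≤ 1 := by
  by_cases hP : Pk α c W ρ = 0
  · have : ∀ x, ph α c W ρ x = 0 := fun x => by
      unfold ph
      rw [hP]
      simp
    simp [this]
  · have h1 : 0 < Pk α c W ρ := lt_of_le_of_ne (Pk_nonneg h ρ) (Ne.symm hP)
    have h2 : Pk α c W ρ * ∑ x, α x * ph α c W ρ x = Pk α c W ρ * 1 := by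
      rw [Finset.mul_sum, mul_one]
      simp only [Pk_mul_ph h]
      exact sum_Pk1 h ρ
    exact (mul_left_cancel₀ hP h2).le

theorem sum_snoc {k : ℕ} (f : (Fin (k + 1) → X) → ℝ) :
    ∑ ρ : Fin (k + 1) → X, f ρ = ∑ ρ : Fin k → X, ∑ z : X, f (Fin.snoc ρ z) := by
  rw [← Equiv.sum_comp (Fin.snocEquiv fun _ : Fin (k + 1) => X) f, Fintype.sum_prod_type,
    Finset.sum_comm]
  rfl

theorem mono_succ (h : Ker α c W) (k : ℕ) : gg α c W k ≤ gg α c W (k + 1) := by
  obtain ⟨h1, h2⟩ := jensen (Ω := (Fin k → X) × X × X)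
    (q := fun p => Pk1 α c W (Fin.snoc p.1 p.2.1 : Fin (k + 1) → X) p.2.2)
    (u := fun p => ph α c W p.1 p.2.2 * (ph α c W (Fin.snoc p.1 p.2.1 : Fin (k + 1) → X) p.2.2)⁻¹)
    (fun p => Pk1_nonneg h _ _)
    (by
      have := sum_sum_Pk1 h (k + 1)
      rw [Fintype.sum_prod_type, sum_snoc] at this
      rw [Fintype.sum_prod_type]
      simp only [Fintype.sum_prod_type]
      exact this)
    (fun p hp => mul_pos (ph_pos h (Pk1_ne_of_snoc h hp)) (inv_pos.2 (ph_pos h hp)))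
  have h3 : ∑ p : (Fin k → X) × X × X, Pk1 α c W (Fin.snoc p.1 p.2.1 : Fin (k + 1) → X) p.2.2
      * (ph α c W p.1 p.2.2 * (ph α c W (Fin.snoc p.1 p.2.1 : Fin (k + 1) → X) p.2.2)⁻¹) ≤ 1 := by
    calc ∑ p : (Fin k → X) × X × X, Pk1 α c W (Fin.snoc p.1 p.2.1 : Fin (k + 1) → X) p.2.2
      * (ph α c W p.1 p.2.2 * (ph α c W (Fin.snoc p.1 p.2.1 : Fin (k + 1) → X) p.2.2)⁻¹)
        ≤ ∑ p : (Fin k → X) × X × X, Pk1 α c W p.1 p.2.1 * (α p.2.2 * ph α c W p.1 p.2.2) := by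
          refine sum_le_sum fun p _ => ?_
          by_cases hP : Pk1 α c W (Fin.snoc p.1 p.2.1 : Fin (k + 1) → X) p.2.2 = 0
          · rw [hP, zero_mul]
            exact mul_nonneg (Pk1_nonneg h _ _) (mul_nonneg (h.a0 _) (ph_nonneg h _ _))
          · have h4 := Pk_mul_ph h (Fin.snoc p.1 p.2.1 : Fin (k + 1) → X) p.2.2
            rw [Pk_snoc] at h4
            have h5 := (ph_pos h hP).ne'
            rw [← h4]
            refine le_of_eq ?_
            field_simp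
      _ ≤ ∑ p : (Fin k → X) × X, Pk1 α c W p.1 p.2 := by
          simp only [Fintype.sum_prod_type]
          refine sum_le_sum fun ρ _ => sum_le_sum fun z _ => ?_
          rw [← Finset.mul_sum]
          have := mul_le_mul_of_nonneg_left (sum_alpha_ph h ρ) (Pk1_nonneg h ρ z)
          rwa [mul_one] at this
      _ = 1 := sum_sum_Pk1 h k
  have h4 : Real.log (∑ p : (Fin k → X) × X × X,
      Pk1 α c W (Fin.snoc p.1 p.2.1 : Fin (k + 1) → X) p.2.2
      * (ph α c W p.1 p.2.2 * (ph α c W (Fin.snoc p.1 p.2.1 : Fin (k + 1) → X) p.2.2)⁻¹)) ≤ 0 :=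
    Real.log_nonpos h1.le h3
  have h5 : gg α c W k = ∑ p : (Fin k → X) × X × X,
      Pk1 α c W (Fin.snoc p.1 p.2.1 : Fin (k + 1) → X) p.2.2 * Real.log (ph α c W p.1 p.2.2) := by
    unfold gg
    simp only [Fintype.sum_prod_type]
    refine sum_congr rfl fun ρ _ => ?_
    rw [Finset.sum_comm]
    refine sum_congr rfl fun x _ => ?_
    rw [← Finset.sum_mul, sum_Pk1_snoc h]
  have h6 : gg α c W (k + 1) = ∑ p : (Fin k → X) × X × X,
      Pk1 α c W (Fin.snoc p.1 p.2.1 : Fin (k + 1) → X) p.2.2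
        * Real.log (ph α c W (Fin.snoc p.1 p.2.1 : Fin (k + 1) → X) p.2.2) := by
    unfold gg
    rw [sum_snoc]
    simp only [Fintype.sum_prod_type]
  have h7 : ∑ p : (Fin k → X) × X × X,
      Pk1 α c W (Fin.snoc p.1 p.2.1 : Fin (k + 1) → X) p.2.2
        * Real.log (ph α c W p.1 p.2.2 *
          (ph α c W (Fin.snoc p.1 p.2.1 : Fin (k + 1) → X) p.2.2)⁻¹)
      = gg α c W k - gg α c W (k + 1) := by
    rw [h5, h6, ← Finset.sum_sub_distrib]
    refine sum_congr rfl fun p _ => ?_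
    by_cases hP : Pk1 α c W (Fin.snoc p.1 p.2.1 : Fin (k + 1) → X) p.2.2 = 0
    · rw [hP]
      ring
    · rw [Real.log_mul (ph_pos h (Pk1_ne_of_snoc h hP)).ne' (inv_pos.2 (ph_pos h hP)).ne',
        Real.log_inv]
      ring
  rw [h7] at h2
  linarith

/-- the information of a further point is monotone -/
theorem mono (h : Ker α c W) {u k : ℕ} (huk : u ≤ k) : gg α c W u ≤ gg α c W k := by
  induction k, huk using Nat.le_induction with
  | base => exact le_rfl
  | succ k _ ih => exact ih.trans (mono_succ h k)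

end mono

end Vale.Agent.P050.R2.H128
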