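import Vale.Agent.P050.R2.H901.Defs2
import Vale.Agent.P050.R2.H901.Prob

set_option linter.all false

/-!
Kernel facts for the hub law with tilted blocks.
-/

namespace Vale.Agent.P050.R2.H128

open Finset Vale.Agent.P050.R2.H901

section basic

variable {X Y : Type} [Fintype X] [Fintype Y] {α : X → ℝ} {c : Y → ℝ} {W : X → Y → ℝ}

theorem dd_nonneg (h : Ker α c W) (y : Y) : 0 ≤ dd α W y :=
  sum_nonneg fun x _ => mul_nonneg (h.a0 x) (h.W0 x y)

theorem mm_nonneg (h : Ker α c W) (y : Y) : 0 ≤ mm α c W y :=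
  div_nonneg (mul_nonneg (h.c0 y) (dd_nonneg h y)) h.p0.le

theorem ee_nonneg (h : Ker α c W) (y : Y) (x : X) : 0 ≤ ee α W y x :=
  div_nonneg (mul_nonneg (h.a0 x) (h.W0 x y)) (dd_nonneg h y)

theorem dd_pos (h : Ker α c W) {y : Y} (hy : mm α c W y ≠ 0) : 0 < dd α W y := by
  refine lt_of_le_of_ne (dd_nonneg h y) fun e => hy ?_
  unfold mm
  rw [← e]; simp

theorem rd_pos (h : Ker α c W) {y : Y} (hy : mm α c W y ≠ 0) : 0 < rd α c W y :=
  div_pos (dd_pos h hy) h.p0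

theorem mm_eq (y : Y) : mm α c W y = c y * rd α c W y := by
  unfold mm rd
  rw [mul_div_assoc]

theorem sum_ee (h : Ker α c W) {y : Y} (hy : mm α c W y ≠ 0) : ∑ x, ee α W y x = 1 := by
  unfold ee
  rw [← Finset.sum_div]
  exact div_self (dd_pos h hy).ne'

theorem sum_mm (h : Ker α c W) : ∑ y, mm α c W y = 1 := by
  unfold mm
  rw [← Finset.sum_div, div_eq_one_iff_eq h.p0.ne']
  unfold dd pp
  rw [Finset.sum_comm]
  refine sum_congr rfl fun y _ => ?_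
  rw [mul_sum]
  exact sum_congr rfl fun x _ => by ring

theorem sum_prod_ee (h : Ker α c W) {y : Y} (hy : mm α c W y ≠ 0) (k : ℕ) :
    ∑ ρ : Fin k → X, ∏ j, ee α W y (ρ j) = 1 :=
  sum_wt_one (μ := fun (_ : Fin k) => ee α W y) (fun _ => sum_ee h hy)

/-- the weight of a star with `k + 1` leaves and centre `z` -/
noncomputable def ww (α : X → ℝ) (c : Y → ℝ) (W : X → Y → ℝ) {k : ℕ} (z : Y) (ρ : Fin k → X)
    (x : X) : ℝ := mm α c W z * (∏ j, ee α W z (ρ j)) * ee α W z x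

theorem ww_nonneg (h : Ker α c W) {k : ℕ} (z : Y) (ρ : Fin k → X) (x : X) :
    0 ≤ ww α c W z ρ x :=
  mul_nonneg (mul_nonneg (mm_nonneg h z) (prod_nonneg fun j _ => ee_nonneg h z _))
    (ee_nonneg h z x)

theorem Pk1_eq {k : ℕ} (ρ : Fin k → X) (x : X) : Pk1 α c W ρ x = ∑ z, ww α c W z ρ x := rfl

theorem Pk1_nonneg (h : Ker α c W) {k : ℕ} (ρ : Fin k → X) (x : X) : 0 ≤ Pk1 α c W ρ x :=
  sum_nonneg fun z _ => ww_nonneg h z ρ x

theorem Pk_nonneg (h : Ker α c W) {k : ℕ} (ρ : Fin k → X) : 0 ≤ Pk α c W ρ :=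
  sum_nonneg fun z _ => mul_nonneg (mm_nonneg h z) (prod_nonneg fun j _ => ee_nonneg h z _)

theorem sum_Pk1 (h : Ker α c W) {k : ℕ} (ρ : Fin k → X) :
    ∑ x, Pk1 α c W ρ x = Pk α c W ρ := by
  unfold Pk1 Pk
  rw [Finset.sum_comm]
  refine sum_congr rfl fun y _ => ?_
  rw [← Finset.mul_sum]
  by_cases hy : mm α c W y = 0
  · simp [hy]
  · rw [sum_ee h hy, mul_one]

theorem sum_Pk (h : Ker α c W) (k : ℕ) : ∑ ρ : Fin k → X, Pk α c W ρ = 1 := by
  unfold Pk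
  rw [Finset.sum_comm, ← sum_mm h]
  refine sum_congr rfl fun y _ => ?_
  rw [← Finset.mul_sum]
  by_cases hy : mm α c W y = 0
  · simp [hy]
  · rw [sum_prod_ee h hy, mul_one]

theorem sum_sum_Pk1 (h : Ker α c W) (k : ℕ) :
    ∑ p : (Fin k → X) × X, Pk1 α c W p.1 p.2 = 1 := by
  rw [Fintype.sum_prod_type]
  simp only [sum_Pk1 h]
  exact sum_Pk h k

theorem exists_ww (h : Ker α c W) {k : ℕ} {ρ : Fin k → X} {x : X} (hP : Pk1 α c W ρ x ≠ 0) :
    ∃ z, ww α c W z ρ x ≠ 0 := by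
  by_contra hh
  apply hP
  rw [Pk1_eq]
  refine sum_eq_zero fun z _ => ?_
  by_contra h0
  exact hh ⟨z, h0⟩

theorem ww_ne {k : ℕ} {z : Y} {ρ : Fin k → X} {x : X} (hw : ww α c W z ρ x ≠ 0) :
    mm α c W z ≠ 0 ∧ (∀ j, ee α W z (ρ j) ≠ 0) ∧ ee α W z x ≠ 0 := by
  unfold ww at hw
  have h1 := left_ne_zero_of_mul hw
  refine ⟨left_ne_zero_of_mul h1, fun j => ?_, right_ne_zero_of_mul hw⟩
  exact Finset.prod_ne_zero_iff.1 (right_ne_zero_of_mul h1) j (mem_univ j)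

theorem ee_ne (h : Ker α c W) {z : Y} {x : X} (he : ee α W z x ≠ 0) : 0 < α x ∧ 0 < W x z := by
  unfold ee at he
  have h1 : α x * W x z ≠ 0 := fun e => he (by rw [e, zero_div])
  exact ⟨lt_of_le_of_ne (h.a0 x) (Ne.symm (left_ne_zero_of_mul h1)),
    lt_of_le_of_ne (h.W0 x z) (Ne.symm (right_ne_zero_of_mul h1))⟩

theorem alpha_pos (h : Ker α c W) {k : ℕ} {ρ : Fin k → X} {x : X} (hP : Pk1 α c W ρ x ≠ 0) :
    0 < α x := by
  obtain ⟨z, hz⟩ := exists_ww h hP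
  exact (ee_ne h (ww_ne hz).2.2).1

theorem Pk_pos (h : Ker α c W) {k : ℕ} {ρ : Fin k → X} {x : X} (hP : Pk1 α c W ρ x ≠ 0) :
    0 < Pk α c W ρ := by
  have h1 : 0 < Pk1 α c W ρ x := lt_of_le_of_ne (Pk1_nonneg h ρ x) (Ne.symm hP)
  rw [← sum_Pk1 h]
  exact lt_of_lt_of_le h1 (single_le_sum (f := fun x => Pk1 α c W ρ x)
    (fun x _ => Pk1_nonneg h ρ x) (mem_univ x))

theorem ph_nonneg (h : Ker α c W) {k : ℕ} (ρ : Fin k → X) (x : X) : 0 ≤ ph α c W ρ x :=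
  div_nonneg (Pk1_nonneg h ρ x) (mul_nonneg (Pk_nonneg h ρ) (h.a0 x))

theorem ph_pos (h : Ker α c W) {k : ℕ} {ρ : Fin k → X} {x : X} (hP : Pk1 α c W ρ x ≠ 0) :
    0 < ph α c W ρ x :=
  div_pos (lt_of_le_of_ne (Pk1_nonneg h ρ x) (Ne.symm hP))
    (mul_pos (Pk_pos h hP) (alpha_pos h hP))

theorem ph_ne (h : Ker α c W) {k : ℕ} {ρ : Fin k → X} {x : X} (hP : ph α c W ρ x ≠ 0) :
    Pk1 α c W ρ x ≠ 0 := fun e => hP (by unfold ph; rw [e, zero_div])

/-- `P_k α φ = P_(k+1)` -/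
theorem Pk_mul_ph (h : Ker α c W) {k : ℕ} (ρ : Fin k → X) (x : X) :
    Pk α c W ρ * (α x * ph α c W ρ x) = Pk1 α c W ρ x := by
  by_cases hP : Pk1 α c W ρ x = 0
  · unfold ph
    rw [hP]; simp
  · unfold ph
    have h1 := (Pk_pos h hP).ne'
    have h2 := (alpha_pos h hP).ne'
    field_simp

end basic

/-- the information of a further point is nonnegative -/
theorem gNonneg : GNonneg := by
  intro X Y _ _ α c W k a0 a1 c0 c1 W0 p0
  have h : Ker α c W := ⟨a0, a1, c0, c1, W0, p0⟩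
  obtain ⟨h1, h2⟩ := jensen (Ω := (Fin k → X) × X) (q := fun p => Pk1 α c W p.1 p.2)
    (u := fun p => (ph α c W p.1 p.2)⁻¹) (fun p => Pk1_nonneg h _ _) (sum_sum_Pk1 h k)
    (fun p hp => inv_pos.2 (ph_pos h hp))
  have h3 : ∑ p : (Fin k → X) × X, Pk1 α c W p.1 p.2 * (ph α c W p.1 p.2)⁻¹ ≤ 1 := by
    calc ∑ p : (Fin k → X) × X, Pk1 α c W p.1 p.2 * (ph α c W p.1 p.2)⁻¹
        ≤ ∑ p : (Fin k → X) × X, Pk α c W p.1 * α p.2 := by
          refine sum_le_sum fun p _ => ?_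
          by_cases hP : Pk1 α c W p.1 p.2 = 0
          · rw [hP, zero_mul]
            exact mul_nonneg (Pk_nonneg h _) (a0 _)
          · have h4 := Pk_mul_ph h p.1 p.2
            have h5 := (ph_pos h hP).ne'
            rw [← h4]
            refine le_of_eq ?_
            field_simp
      _ = 1 := by
          rw [Fintype.sum_prod_type]
          simp only [← Finset.mul_sum, a1, mul_one]
          exact sum_Pk h k
  have h4 : Real.log (∑ p : (Fin k → X) × X, Pk1 α c W p.1 p.2 * (ph α c W p.1 p.2)⁻¹) ≤ 0 :=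
    Real.log_nonpos h1.le h3
  have h5 : gg α c W k = -∑ p : (Fin k → X) × X,
      Pk1 α c W p.1 p.2 * Real.log ((ph α c W p.1 p.2)⁻¹) := by
    unfold gg
    rw [Fintype.sum_prod_type, ← Finset.sum_neg_distrib]
    refine sum_congr rfl fun ρ _ => ?_
    rw [← Finset.sum_neg_distrib]
    refine sum_congr rfl fun x _ => ?_
    simp only [Real.log_inv]
    ring
  rw [h5]
  linarith

theorem swap3 {X Y : Type} [Fintype X] [Fintype Y] {R : Type} [Fintype R] (f : Y → R → X → ℝ) :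
    ∑ ρ, ∑ x, ∑ z, f z ρ x = ∑ z, ∑ ρ, ∑ x, f z ρ x := by
  have h1 : ∀ ρ, ∑ x, ∑ z, f z ρ x = ∑ z, ∑ x, f z ρ x := fun ρ => Finset.sum_comm
  simp only [h1]
  exact Finset.sum_comm

/-- the posterior weights of the centre -/
theorem sum_post {X Y : Type} [Fintype X] [Fintype Y] {α : X → ℝ} {c : Y → ℝ} {W : X → Y → ℝ}
    {k : ℕ} {ρ : Fin k → X} {x : X} (hP : Pk1 α c W ρ x ≠ 0) :
    ∑ z, ww α c W z ρ x / Pk1 α c W ρ x = 1 := by
  rw [← Finset.sum_div]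
  exact div_self hP

theorem Pk1_mul_sum {X Y : Type} [Fintype X] [Fintype Y] {α : X → ℝ} {c : Y → ℝ} {W : X → Y → ℝ}
    (h : Ker α c W) {k : ℕ} (ρ : Fin k → X) (x : X) (f : Y → ℝ) :
    Pk1 α c W ρ x * ∑ z, ww α c W z ρ x / Pk1 α c W ρ x * f z = ∑ z, ww α c W z ρ x * f z := by
  by_cases hP : Pk1 α c W ρ x = 0
  · rw [hP, zero_mul]
    symm
    refine sum_eq_zero fun z _ => ?_
    have : ww α c W z ρ x = 0 := by
      rw [Pk1_eq] at hP
      exact (sum_eq_zero_iff_of_nonneg (fun z _ => ww_nonneg h z ρ x)).1 hP z (mem_univ z)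
    rw [this, zero_mul]
  · rw [Finset.mul_sum]
    refine sum_congr rfl fun z _ => ?_
    field_simp

theorem k1Stmt : K1Stmt := by
  intro X Y _ _ α c W k h
  refine ⟨fun ρ x => ∑ z, ww α c W z ρ x / Pk1 α c W ρ x * (rd α c W z)⁻¹, ?_, ?_, ?_⟩
  · intro ρ x
    refine sum_nonneg fun z _ => mul_nonneg (div_nonneg (ww_nonneg h z ρ x) (Pk1_nonneg h ρ x)) ?_
    exact inv_nonneg.2 (div_nonneg (dd_nonneg h z) h.p0.le)
  · intro ρ x hP
    obtain ⟨h1, h2⟩ := jensen (Ω := Y) (q := fun z => ww α c W z ρ x / Pk1 α c W ρ x)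
      (u := fun z => (rd α c W z)⁻¹)
      (fun z => div_nonneg (ww_nonneg h z ρ x) (Pk1_nonneg h ρ x)) (sum_post hP)
      (fun z hz => inv_pos.2 (rd_pos h (ww_ne (fun e => hz (by rw [e, zero_div]))).1))
    refine ⟨h1, le_trans (le_of_eq ?_) h2⟩
    unfold Rk
    rw [← Finset.sum_neg_distrib]
    refine sum_congr rfl fun z _ => ?_
    rw [Real.log_inv]
    unfold ww
    ring
  · have h1 : ∑ ρ : Fin k → X, ∑ x, Pk1 α c W ρ x *
        ∑ z, ww α c W z ρ x / Pk1 α c W ρ x * (rd α c W z)⁻¹ =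
        ∑ z, (mm α c W z * (rd α c W z)⁻¹) * ∑ ρ : Fin k → X, (∏ j, ee α W z (ρ j)) *
          ∑ x, ee α W z x := by
      have h2 : ∀ z, (mm α c W z * (rd α c W z)⁻¹) * ∑ ρ : Fin k → X, (∏ j, ee α W z (ρ j)) *
          ∑ x, ee α W z x = ∑ ρ : Fin k → X, ∑ x, ww α c W z ρ x * (rd α c W z)⁻¹ := by
        intro z
        rw [Finset.mul_sum]
        refine sum_congr rfl fun ρ _ => ?_
        rw [Finset.mul_sum, Finset.mul_sum]
        refine sum_congr rfl fun x _ => ?_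
        unfold ww
        ring
      simp only [h2]
      rw [← swap3]
      refine sum_congr rfl fun ρ _ => ?_
      refine sum_congr rfl fun x _ => ?_
      exact Pk1_mul_sum h ρ x fun z => (rd α c W z)⁻¹
    show ∑ ρ : Fin k → X, ∑ x, Pk1 α c W ρ x *
        ∑ z, ww α c W z ρ x / Pk1 α c W ρ x * (rd α c W z)⁻¹ ≤ 1
    rw [h1, ← h.c1]
    refine sum_le_sum fun z _ => ?_
    by_cases hz : mm α c W z = 0
    · rw [hz, zero_mul, zero_mul]
      exact h.c0 z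
    · rw [sum_ee h hz]
      simp only [mul_one]
      rw [sum_prod_ee h hz, mul_one, mm_eq]
      have := (rd_pos h hz).ne'
      refine le_of_eq ?_
      field_simp

end Vale.Agent.P050.R2.H128
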