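import Vale.Agent.P050.R2.H128.WKer

set_option linter.all false

/-!
Kernel facts for the hub law with tilted blocks, second part.
-/

namespace Vale.Agent.P050.R2.H128

open Finset Vale.Agent.P050.R2.H901

section basic

variable {X Y : Type} [Fintype X] [Fintype Y] {α : X → ℝ} {c : Y → ℝ} {W : X → Y → ℝ}

theorem FF_nonneg (h : Ker α c W) {ι : Type} [Fintype ι] (ξ : ι → X) : 0 ≤ FF α c W ξ :=
  div_nonneg (sum_nonneg fun y _ => mul_nonneg (h.c0 y) (prod_nonneg fun i _ => h.W0 _ _))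
    (pow_nonneg h.p0.le _)

theorem c_pos (h : Ker α c W) {z : Y} (hz : mm α c W z ≠ 0) : 0 < c z := by
  refine lt_of_le_of_ne (h.c0 z) fun e => hz ?_
  rw [mm_eq, ← e, zero_mul]

theorem FF_pos (h : Ker α c W) {ι : Type} [Fintype ι] {ξ : ι → X} {z : Y}
    (hz : mm α c W z ≠ 0) (hW : ∀ i, 0 < W (ξ i) z) : 0 < FF α c W ξ := by
  refine div_pos ?_ (pow_pos h.p0 _)
  have h1 : 0 < c z * ∏ i, W (ξ i) z := mul_pos (c_pos h hz) (prod_pos fun i _ => hW i)
  refine lt_of_lt_of_le h1 ?_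
  exact single_le_sum (f := fun y => c y * ∏ i, W (ξ i) y)
    (fun y _ => mul_nonneg (h.c0 y) (prod_nonneg fun i _ => h.W0 _ _)) (mem_univ z)

/-- the star identity -/
theorem star_identity (h : Ker α c W) {ι : Type} [Fintype ι] [Nonempty ι] (ξ : ι → X) (z : Y) :
    mm α c W z * rd α c W z ^ (Fintype.card ι - 1) * ∏ i, ee α W z (ξ i) =
      (∏ i, α (ξ i)) * (c z * (∏ i, W (ξ i) z) / pp α c W ^ Fintype.card ι) := by
  have hp := h.p0.ne'
  obtain ⟨n, hn⟩ : ∃ n, Fintype.card ι = n + 1 :=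
    ⟨Fintype.card ι - 1, (Nat.succ_pred_eq_of_pos Fintype.card_pos).symm⟩
  by_cases hd : dd α W z = 0
  · have h1 : mm α c W z = 0 := by unfold mm; rw [hd]; simp
    have h2 : ∀ x, α x * W x z = 0 := by
      intro x
      unfold dd at hd
      exact (sum_eq_zero_iff_of_nonneg (fun x _ => mul_nonneg (h.a0 x) (h.W0 x z))).1 hd x
        (mem_univ x)
    have h3 : (∏ i, α (ξ i)) * ∏ i, W (ξ i) z = 0 := by
      rw [← Finset.prod_mul_distrib]
      obtain ⟨i⟩ := ‹Nonempty ι›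
      exact prod_eq_zero (mem_univ i) (h2 _)
    rw [h1, zero_mul, zero_mul]
    symm
    calc (∏ i, α (ξ i)) * (c z * (∏ i, W (ξ i) z) / pp α c W ^ Fintype.card ι)
        = c z / pp α c W ^ Fintype.card ι * ((∏ i, α (ξ i)) * ∏ i, W (ξ i) z) := by ring
      _ = 0 := by rw [h3, mul_zero]
  · have h1 : ∏ i, ee α W z (ξ i) =
        ((∏ i, α (ξ i)) * ∏ i, W (ξ i) z) / dd α W z ^ Fintype.card ι := by
      unfold ee
      rw [Finset.prod_div_distrib, Finset.prod_mul_distrib, Finset.prod_const, card_univ]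
    rw [h1, mm_eq, hn]
    unfold rd
    rw [Nat.add_sub_cancel, div_pow, pow_succ, pow_succ]
    field_simp

theorem ww_option {k : ℕ} (z : Y) (ρ : Fin k → X) (x : X) :
    ww α c W z ρ x = mm α c W z * wt (fun (_ : Option (Fin k)) => ee α W z)
      (fun o => o.elim x ρ) := by
  unfold ww wt
  rw [Fintype.prod_option]
  simp only [Option.elim_none, Option.elim_some]
  ring

end basic

/-- pairs and functions on `Option` -/
theorem sum_option {X : Type} [Fintype X] {k : ℕ} (f : (Option (Fin k) → X) → ℝ) :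
    ∑ ρ : Fin k → X, ∑ x, f (fun o => o.elim x ρ) = ∑ v : Option (Fin k) → X, f v := by
  rw [← Fintype.sum_prod_type' (f := fun (ρ : Fin k → X) (x : X) => f (fun o => o.elim x ρ))]
  refine Fintype.sum_equiv
    ⟨fun p o => o.elim p.2 p.1, fun v => (fun j => v (some j), v none), ?_, ?_⟩ _ _ ?_
  · rintro ⟨ρ, x⟩
    rfl
  · intro v
    funext o
    cases o <;> rfl
  · rintro ⟨ρ, x⟩
    rfl

theorem k2Stmt : K2Stmt := by
  intro X Y _ _ α c W k ι _ _ _ J hJ h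
  refine ⟨fun ρ x => (∑ z, ww α c W z ρ x / Pk1 α c W ρ x * rd α c W z ^ (Fintype.card ι - 1)) *
    (FF α c W (fun i => (J i).elim x ρ))⁻¹, ?_, ?_, ?_⟩
  · intro ρ x
    refine mul_nonneg (sum_nonneg fun z _ => mul_nonneg
      (div_nonneg (ww_nonneg h z ρ x) (Pk1_nonneg h ρ x)) ?_) (inv_nonneg.2 (FF_nonneg h _))
    exact pow_nonneg (div_nonneg (dd_nonneg h z) h.p0.le) _
  · intro ρ x hP
    have hF : 0 < FF α c W (fun i => (J i).elim x ρ) := by
      obtain ⟨z, hz⟩ := exists_ww h hP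
      obtain ⟨h1, h2, h3⟩ := ww_ne hz
      refine FF_pos h h1 fun i => ?_
      cases hi : J i with
      | none => exact (ee_ne h h3).2
      | some j => exact (ee_ne h (h2 j)).2
    obtain ⟨h1, h2⟩ := jensen (Ω := Y) (q := fun z => ww α c W z ρ x / Pk1 α c W ρ x)
      (u := fun z => rd α c W z ^ (Fintype.card ι - 1))
      (fun z => div_nonneg (ww_nonneg h z ρ x) (Pk1_nonneg h ρ x)) (sum_post hP)
      (fun z hz => pow_pos (rd_pos h (ww_ne (fun e => hz (by rw [e, zero_div]))).1) _)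
    refine ⟨hF, mul_pos h1 (inv_pos.2 hF), ?_⟩
    rw [Real.log_mul h1.ne' (inv_pos.2 hF).ne', Real.log_inv, ← sub_eq_add_neg]
    refine sub_le_sub_right (le_trans (le_of_eq ?_) h2) _
    unfold Rk
    rw [Finset.mul_sum]
    refine sum_congr rfl fun z _ => ?_
    rw [Real.log_pow, Nat.cast_sub (Nat.one_le_iff_ne_zero.2 Fintype.card_ne_zero), Nat.cast_one]
    unfold ww
    ring
  · -- the total mass
    have h1 : ∀ (ρ : Fin k → X) (x : X), Pk1 α c W ρ x *
        ((∑ z, ww α c W z ρ x / Pk1 α c W ρ x * rd α c W z ^ (Fintype.card ι - 1)) *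
          (FF α c W (fun i => (J i).elim x ρ))⁻¹) =
        ∑ z, (mm α c W z * rd α c W z ^ (Fintype.card ι - 1)) *
          (wt (fun (_ : Option (Fin k)) => ee α W z) (fun o => o.elim x ρ) *
            (FF α c W (fun i => (J i).elim x ρ))⁻¹) := by
      intro ρ x
      rw [← mul_assoc, Pk1_mul_sum h ρ x fun z => rd α c W z ^ (Fintype.card ι - 1),
        Finset.sum_mul]
      refine sum_congr rfl fun z _ => ?_
      rw [ww_option]
      ring
    show ∑ ρ : Fin k → X, ∑ x, Pk1 α c W ρ x *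
        ((∑ z, ww α c W z ρ x / Pk1 α c W ρ x * rd α c W z ^ (Fintype.card ι - 1)) *
          (FF α c W (fun i => (J i).elim x ρ))⁻¹) ≤ 1
    simp only [h1]
    rw [swap3]
    have h2 : ∀ z, ∑ ρ : Fin k → X, ∑ x, (mm α c W z * rd α c W z ^ (Fintype.card ι - 1)) *
          (wt (fun (_ : Option (Fin k)) => ee α W z) (fun o => o.elim x ρ) *
            (FF α c W (fun i => (J i).elim x ρ))⁻¹) =
        ∑ ξ : ι → X, (mm α c W z * rd α c W z ^ (Fintype.card ι - 1) * ∏ i, ee α W z (ξ i)) *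
          (FF α c W ξ)⁻¹ := by
      intro z
      by_cases hz : mm α c W z = 0
      · simp [hz]
      · simp only [← Finset.mul_sum]
        rw [sum_option (fun v => wt (fun (_ : Option (Fin k)) => ee α W z) v *
          (FF α c W (fun i => v (J i)))⁻¹)]
        rw [marg (μ := fun (_ : Option (Fin k)) => ee α W z) (fun _ => sum_ee h hz) hJ
          (fun ξ => (FF α c W ξ)⁻¹)]
        rw [Finset.mul_sum]
        refine sum_congr rfl fun ξ _ => ?_
        ring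
    simp only [h2, star_identity h]
    rw [Finset.sum_comm]
    have h3 : ∀ ξ : ι → X, ∑ z, (∏ i, α (ξ i)) *
        (c z * (∏ i, W (ξ i) z) / pp α c W ^ Fintype.card ι) * (FF α c W ξ)⁻¹ ≤
        ∏ i, α (ξ i) := by
      intro ξ
      have h4 : ∑ z, (∏ i, α (ξ i)) *
        (c z * (∏ i, W (ξ i) z) / pp α c W ^ Fintype.card ι) * (FF α c W ξ)⁻¹ =
          (∏ i, α (ξ i)) * (FF α c W ξ * (FF α c W ξ)⁻¹) := by
        rw [← Finset.sum_mul, ← Finset.mul_sum, ← Finset.sum_div]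
        unfold FF
        ring
      rw [h4]
      have h5 : FF α c W ξ * (FF α c W ξ)⁻¹ ≤ 1 := mul_inv_le_one
      calc (∏ i, α (ξ i)) * (FF α c W ξ * (FF α c W ξ)⁻¹) ≤ (∏ i, α (ξ i)) * 1 :=
            mul_le_mul_of_nonneg_left h5 (prod_nonneg fun i _ => h.a0 _)
        _ = _ := mul_one _
    refine (sum_le_sum fun ξ _ => h3 ξ).trans (le_of_eq ?_)
    exact sum_wt_one (μ := fun (_ : ι) => α) (fun _ => h.a1)

theorem sumStmt : SumStmt := by
  intro X Y _ _ α c W k r θ hθ hθ1 h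
  have hp0 : ∀ y, ∀ (ρ : Fin k → X), 0 ≤ ∏ j, ee α W y (ρ j) :=
    fun y ρ => prod_nonneg fun j _ => ee_nonneg h y _
  -- the marginal in `ξ`
  have hu0 : ∀ y ξ, 0 ≤ ∑ ρ : Fin k → X, (∏ j, ee α W y (ρ j)) * ph α c W ρ ξ ^ θ :=
    fun y ξ => sum_nonneg fun ρ _ => mul_nonneg (hp0 y ρ) (Real.rpow_nonneg (ph_nonneg h ρ ξ) θ)
  -- the weights
  have hPpos : ∀ y, mm α c W y ≠ 0 → ∀ ρ : Fin k → X, ∏ j, ee α W y (ρ j) ≠ 0 →
      0 < Pk α c W ρ := by
    intro y hy ρ hρ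
    have h1 : 0 < mm α c W y * ∏ j, ee α W y (ρ j) :=
      mul_pos (lt_of_le_of_ne (mm_nonneg h y) (Ne.symm hy))
        (lt_of_le_of_ne (hp0 y ρ) (Ne.symm hρ))
    exact lt_of_lt_of_le h1 (single_le_sum (f := fun y => mm α c W y * ∏ j, ee α W y (ρ j))
      (fun y _ => mul_nonneg (mm_nonneg h y) (hp0 y ρ)) (mem_univ y))
  have hph1 : ∀ y, mm α c W y ≠ 0 → ∀ ρ : Fin k → X, ∏ j, ee α W y (ρ j) ≠ 0 →
      ∑ ξ, α ξ * ph α c W ρ ξ = 1 := by
    intro y hy ρ hρ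
    have h1 := hPpos y hy ρ hρ
    have h2 : Pk α c W ρ * ∑ ξ, α ξ * ph α c W ρ ξ = Pk α c W ρ := by
      rw [Finset.mul_sum]
      simp only [Pk_mul_ph h]
      exact sum_Pk1 h ρ
    exact mul_left_cancel₀ h1.ne' (by rw [h2, mul_one])
  have hq1 : ∀ y, mm α c W y ≠ 0 →
      ∑ p : (Fin k → X) × X, (∏ j, ee α W y (p.1 j)) * (α p.2 * ph α c W p.1 p.2) = 1 := by
    intro y hy
    rw [Fintype.sum_prod_type]
    simp only [← Finset.mul_sum]
    rw [← sum_prod_ee h hy k]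
    refine sum_congr rfl fun ρ _ => ?_
    by_cases hρ : ∏ j, ee α W y (ρ j) = 0
    · rw [hρ, zero_mul]
    · rw [hph1 y hy ρ hρ, mul_one]
  -- the sum `S y`
  have hS : ∀ y, mm α c W y ≠ 0 →
      0 < ∑ ξ, α ξ * ∑ ρ : Fin k → X, (∏ j, ee α W y (ρ j)) * ph α c W ρ ξ ^ θ ∧
      (θ - 1) * ∑ p : (Fin k → X) × X, (∏ j, ee α W y (p.1 j)) * (α p.2 * ph α c W p.1 p.2) *
        Real.log (ph α c W p.1 p.2) ≤
      Real.log (∑ ξ, α ξ * ∑ ρ : Fin k → X, (∏ j, ee α W y (ρ j)) * ph α c W ρ ξ ^ θ) := by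
    intro y hy
    obtain ⟨h1, h2⟩ := jensen (Ω := (Fin k → X) × X)
      (q := fun p => (∏ j, ee α W y (p.1 j)) * (α p.2 * ph α c W p.1 p.2))
      (u := fun p => ph α c W p.1 p.2 ^ (θ - 1))
      (fun p => mul_nonneg (hp0 y _) (mul_nonneg (h.a0 _) (ph_nonneg h _ _))) (hq1 y hy)
      (fun p hp => Real.rpow_pos_of_pos (ph_pos h (ph_ne h
        (right_ne_zero_of_mul (right_ne_zero_of_mul hp)))) _)
    have h3 : ∑ p : (Fin k → X) × X, (∏ j, ee α W y (p.1 j)) * (α p.2 * ph α c W p.1 p.2) *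
        ph α c W p.1 p.2 ^ (θ - 1) =
        ∑ ξ, α ξ * ∑ ρ : Fin k → X, (∏ j, ee α W y (ρ j)) * ph α c W ρ ξ ^ θ := by
      rw [Fintype.sum_prod_type, Finset.sum_comm]
      refine sum_congr rfl fun ξ _ => ?_
      rw [Finset.mul_sum]
      refine sum_congr rfl fun ρ _ => ?_
      by_cases h0 : ph α c W ρ ξ = 0
      · simp only [h0]
        rw [Real.zero_rpow hθ.ne']
        ring
      · have hpos : 0 < ph α c W ρ ξ := lt_of_le_of_ne (ph_nonneg h ρ ξ) (Ne.symm h0)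
        have h4 : ph α c W ρ ξ ^ θ = ph α c W ρ ξ * ph α c W ρ ξ ^ (θ - 1) := by
          rw [Real.rpow_sub_one hpos.ne']
          field_simp
        rw [h4]
        ring
    rw [h3] at h1 h2
    refine ⟨h1, le_trans (le_of_eq ?_) h2⟩
    rw [Finset.mul_sum]
    refine sum_congr rfl fun p _ => ?_
    by_cases h0 : ph α c W p.1 p.2 = 0
    · simp [h0]
    · have hpos : 0 < ph α c W p.1 p.2 := lt_of_le_of_ne (ph_nonneg h _ _) (Ne.symm h0)
      rw [Real.log_rpow hpos]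
      ring
  -- the power mean inequality
  have hpow : ∀ y, (∑ ξ, α ξ * ∑ ρ : Fin k → X, (∏ j, ee α W y (ρ j)) * ph α c W ρ ξ ^ θ) ^ r ≤
      ∑ ξ, α ξ * (∑ ρ : Fin k → X, (∏ j, ee α W y (ρ j)) * ph α c W ρ ξ ^ θ) ^ r := by
    intro y
    exact Real.pow_arith_mean_le_arith_mean_pow univ α
      (fun ξ => ∑ ρ : Fin k → X, (∏ j, ee α W y (ρ j)) * ph α c W ρ ξ ^ θ)
      (fun ξ _ => h.a0 ξ) h.a1 (fun ξ _ => hu0 y ξ) r
  refine ⟨fun y hy => lt_of_lt_of_le (pow_pos (hS y hy).1 r) (hpow y), ?_⟩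
  have h1 : ∀ y, mm α c W y * (r * ((θ - 1) * ∑ p : (Fin k → X) × X,
      (∏ j, ee α W y (p.1 j)) * (α p.2 * ph α c W p.1 p.2) * Real.log (ph α c W p.1 p.2))) ≤
      mm α c W y * Real.log (∑ ξ, α ξ *
        (∑ ρ : Fin k → X, (∏ j, ee α W y (ρ j)) * ph α c W ρ ξ ^ θ) ^ r) := by
    intro y
    by_cases hy : mm α c W y = 0
    · rw [hy, zero_mul, zero_mul]
    · refine mul_le_mul_of_nonneg_left ?_ (mm_nonneg h y)
      obtain ⟨h2, h3⟩ := hS y hy
      calc (r:ℝ) * ((θ - 1) * ∑ p : (Fin k → X) × X,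
            (∏ j, ee α W y (p.1 j)) * (α p.2 * ph α c W p.1 p.2) * Real.log (ph α c W p.1 p.2))
          ≤ r * Real.log (∑ ξ, α ξ * ∑ ρ : Fin k → X,
              (∏ j, ee α W y (ρ j)) * ph α c W ρ ξ ^ θ) :=
            mul_le_mul_of_nonneg_left h3 (Nat.cast_nonneg r)
        _ = Real.log ((∑ ξ, α ξ * ∑ ρ : Fin k → X,
              (∏ j, ee α W y (ρ j)) * ph α c W ρ ξ ^ θ) ^ r) := (Real.log_pow _ _).symm
        _ ≤ _ := Real.log_le_log (pow_pos h2 r) (hpow y)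
  refine le_trans (le_of_eq ?_) (sum_le_sum fun y _ => h1 y)
  have h2 : gg α c W k = ∑ p : (Fin k → X) × X, ∑ y, mm α c W y *
      ((∏ j, ee α W y (p.1 j)) * (α p.2 * ph α c W p.1 p.2) * Real.log (ph α c W p.1 p.2)) := by
    unfold gg
    rw [Fintype.sum_prod_type]
    refine sum_congr rfl fun ρ _ => ?_
    refine sum_congr rfl fun x _ => ?_
    rw [← Pk_mul_ph h ρ x]
    unfold Pk
    rw [Finset.sum_mul, Finset.sum_mul]
    refine sum_congr rfl fun y _ => ?_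
    ring
  rw [h2, Finset.sum_comm]
  rw [Finset.mul_sum, ← Finset.sum_neg_distrib]
  refine sum_congr rfl fun y _ => ?_
  rw [← Finset.mul_sum]
  ring

end Vale.Agent.P050.R2.H128
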